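import Crest.Agent.X212.Rsp69.Win
import Crest.Agent.X212.Dgr80.Lg
import Crest.Agent.X212.Pj41.Cm
import Crest.Agent.X212.Dgr80.Cf

-- ▼ part X212/Rsp69/Dif
section

/-! Row 212, RESP (helper69): exponential locality of the resolvent on a band; pairs. -/

set_option autoImplicit false
set_option linter.unusedSectionVars false
noncomputable section
open scoped Manifold ContDiff Topology InnerProductSpace
open MeasureTheory Set Function Filter Real

namespace Crest.Agent.X212.Rsp69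
open An Sob92 Wz78
open Nd18 (BD Dp ct)
open Dgr80 (b LB Wg)
open Mp86 (Mc)

theorem summable_exp_int {a : ℝ} (h : 0 < a) : Summable fun n : ℤ => exp (-(a * |(n : ℝ)|)) := by
  have : Summable fun n : ℕ => exp (n * -a) := summable_exp_nat_mul_iff.2 (by linarith)
  refine .of_nat_of_neg (this.congr fun n => ?_) (this.congr fun n => ?_) <;> simp [mul_comm]

/-- the constant of the summation over windows -/
def cS (κ : ℝ) : ℝ := exp κ * ∑' n : ℤ, exp (-(κ / 2 * |(n : ℝ)|))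

theorem cS_nonneg (κ : ℝ) : 0 ≤ cS κ :=
  mul_nonneg (exp_pos _).le (tsum_nonneg fun _ => (exp_pos _).le)

/-- summation over windows -/
theorem ws {X : Type*} [MeasurableSpace X] {μ : Measure X} {τ g : X → ℝ} (hτ : Measurable τ)
    (g0 : ∀ x, 0 ≤ g x) (hg : Integrable g μ) {κ t B : ℝ} (hκ : 0 < κ)
    (h : ∀ s, ∫ x, wc 2 s (τ x) ^ 2 * g x ∂μ ≤ B * exp (κ / 2 * |s - t|)) :
    ∫ x, exp (-(κ * |τ x - t|)) * g x ∂μ ≤ cS κ * B := by
  have m : ∀ n : ℤ, MeasurableSet {x | ⌊τ x - t⌋ = n} := fun n =>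
    (hτ.sub_const t).floor (measurableSet_singleton n)
  have i1 : Integrable (fun x => exp (-(κ * |τ x - t|)) * g x) μ :=
    hg.bdd_mul (c := 1) (Measurable.aestronglyMeasurable (by fun_prop)) (.of_forall fun x => by
      rw [Real.norm_of_nonneg (exp_pos _).le]
      exact exp_le_one_iff.2 (neg_nonpos.2 (by positivity)))
  have i2 : ∀ s, Integrable (fun x => wc 2 s (τ x) ^ 2 * g x) μ := fun s =>
    hg.bdd_mul (c := 1) ((continuous_wc.measurable.comp hτ).pow_const 2).aestronglyMeasurable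
      (.of_forall fun x => by
        rw [Real.norm_of_nonneg (sq_nonneg _)]; exact pow_le_one₀ wc_mem.1 wc_mem.2)
  have hs := hasSum_integral_iUnion (μ := μ) m (fun n n' hn => disjoint_left.2 fun x h1 h2 =>
    hn (h1.symm.trans h2)) i1.integrableOn
  rw [show ⋃ n : ℤ, {x | ⌊τ x - t⌋ = n} = univ from eq_univ_of_forall fun x => mem_iUnion.2
    ⟨_, rfl⟩, setIntegral_univ] at hs
  rw [cS, mul_right_comm, ← tsum_mul_left]
  refine hasSum_le (fun n => ?_) hs ((summable_exp_int (half_pos hκ)).mul_left _).hasSum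
  calc _ ≤ ∫ x in {x | ⌊τ x - t⌋ = n}, exp (κ - κ * |(n : ℝ)|) * (wc 2 (t + n) (τ x) ^ 2 * g x) ∂μ := by
        refine setIntegral_mono_on i1.integrableOn ((i2 _).const_mul _).integrableOn (m n)
          fun x hx => ?_
        obtain ⟨h1, h2⟩ := Int.floor_eq_iff.1 hx
        have h3 : |τ x - (t + n)| ≤ 1 := abs_le.2 ⟨by linarith, by linarith⟩
        have h4 := abs_sub_abs_le_abs_sub (n : ℝ) (τ x - t)
        rw [abs_sub_comm (n : ℝ), sub_sub] at h4
        rw [wc_one (by linarith), one_pow, one_mul]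
        exact mul_le_mul_of_nonneg_right (exp_le_exp.2 (by nlinarith)) (g0 x)
    _ ≤ exp (κ - κ * |(n : ℝ)|) * (B * exp (κ / 2 * |t + n - t|)) := by
        rw [integral_const_mul]
        exact mul_le_mul_of_nonneg_left ((setIntegral_le_integral (i2 _) (.of_forall fun x =>
          mul_nonneg (sq_nonneg _) (g0 x))).trans (h _)) (exp_pos _).le
    _ = _ := by
        rw [add_sub_cancel_left, mul_left_comm, ← exp_add, mul_right_comm, ← exp_add, mul_comm]
        congr 2; ring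

variable {E : Type} [NormedAddCommGroup E] [NormedSpace ℝ E] [FiniteDimensional ℝ E]
  [MeasurableSpace E] [BorelSpace E]
  {HM : Type} [TopologicalSpace HM] {I : ModelWithCorners ℝ E HM} [I.Boundaryless]
  {M : Type} [TopologicalSpace M] [ChartedSpace HM M] [IsManifold I ∞ M]
  [MeasurableSpace M] [T2Space M] [BorelSpace M] [SecondCountableTopology M]
  {ι : Type} [Fintype ι] {𝒟 : Type*}

section pt
variable {V : Type} [NormedAddCommGroup V] [InnerProductSpace ℝ V] {F : Fr I M ι}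
  {A : ι → M → V →L[ℝ] V} {τ χ : M → ℝ} {e u : M → V} {x : M} {κ : ℝ}

theorem wg_b (hκ : 0 < κ) (hτ : Sm I τ) (h : ∀ x, 4 * κ ^ 2 * ∑ a, F.D a τ x ^ 2 ≤ 1) (t : ℝ) :
    Wg F fun x => b κ (τ x - t) := by
  have s1 : Sm I fun x => τ x - t := hτ.sub contMDiff_const
  refine ⟨(Dgr80.contDiff_b κ).contMDiff.comp s1, fun x => Dgr80.b_pos hκ _, fun x => ?_⟩
  have e : ∀ a, F.D a (fun x => b κ (τ x - t)) x ^ 2 ≤ F.D a τ x ^ 2 * (κ * b κ (τ x - t)) ^ 2 :=
    fun a => by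
    rw [Pre.D_def, dv_comp (md s1 x) (Dgr80.hasDerivAt_b κ _).hasFDerivAt,
      dv_sub' (hτ x) contMDiffAt_const, dv_const]
    simp only [Pi.zero_apply, sub_zero, ContinuousLinearMap.toSpanSingleton_apply, smul_eq_mul,
      mul_pow _ (_ * b κ _), Pre.D_def]
    exact mul_le_mul_of_nonneg_left (sq_le_sq' (abs_le.1 (Dgr80.abs_deriv_b_le hκ _)).1
      (abs_le.1 (Dgr80.abs_deriv_b_le hκ _)).2) (sq_nonneg _)
  have := Finset.sum_le_sum fun a (_ : a ∈ Finset.univ) => e a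
  rw [← Finset.sum_mul] at this
  nlinarith [mul_le_mul_of_nonneg_right (h x) (sq_nonneg (b κ (τ x - t)))]

theorem sa_nab (hA : ∀ a, SA I (A a) x) (he : SA I e x) (a : ι) : SA I (nab I F.e A a e) x :=
  (sa_D (F := F.toPre) he a).add ((hA a).app he)

theorem lap_smul (hA : ∀ a, SA I (A a) x) (hχ : SA I χ x) (he : SA I e x) :
    lap I F.e F.dv A (fun y => χ y • e y) x = χ x • lap I F.e F.dv A e x -
      ∑ a, ((2 * F.D a χ x) • nab I F.e A a e x + (F.D a (F.D a χ) x + F.dv a x * F.D a χ x) • e x) := by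
  have h1 : ∀ a, nab I F.e A a (fun y => χ y • e y) =ᶠ[𝓝 x]
      fun y => F.D a χ y • e y + χ y • nab I F.e A a e y := fun a => by
    filter_upwards [D_smul_ev (F := F) hχ he a] with y hy
    simp only [nab, ← Pre.D_def, hy, map_smul, smul_add, add_assoc]
  simp only [lap, fun a => nab_congr (e := F.e) (A := A) a (h1 a), fun a => (h1 a).self_of_nhds,
    fun a => nab_add (e := F.e) (A := A) a (SA.smul (sa_D (F := F.toPre) hχ a) he)
      (SA.smul hχ (sa_nab (F := F) hA he a)),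
    fun a => nab_smul (e := F.e) (A := A) a (sa_D (F := F.toPre) hχ a) he,
    fun a => nab_smul (e := F.e) (A := A) a hχ (sa_nab (F := F) hA he a), smul_neg,
    Finset.smul_sum, ← Pre.D_def]
  rw [← neg_add', ← Finset.sum_add_distrib]
  congr 1
  refine Finset.sum_congr rfl fun a _ => ?_
  module

theorem lap_sub' (hA : ∀ a, SA I (A a) x) (hu : SA I u x) (he : SA I e x) :
    lap I F.e F.dv A (fun y => u y - e y) x = lap I F.e F.dv A u x - lap I F.e F.dv A e x := by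
  have h1 : ∀ a, nab I F.e A a (fun y => u y - e y) =ᶠ[𝓝 x]
      fun y => nab I F.e A a u y - nab I F.e A a e y := fun a => by
    filter_upwards [hu.ev, he.ev] with y h1 h2
    have : dv I (F.e a) (fun y => u y - e y) y = _ := dv_sub h1 h2
    simp only [nab, this, map_sub]; abel
  simp only [lap, fun a => nab_congr (e := F.e) (A := A) a (h1 a), fun a => (h1 a).self_of_nhds,
    fun a => nab_sub (e := F.e) (A := A) a (sa_nab (F := F) hA hu a) (sa_nab (F := F) hA he a),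
    smul_sub, Finset.sum_add_distrib, Finset.sum_sub_distrib]
  abel

theorem lap_zero : lap I F.e F.dv A (fun _ => 0) x = 0 := by
  have : ∀ a, nab I F.e A a (fun _ => 0) = fun _ => 0 := fun a => funext fun y => by
    simp [nab, dv_const]
  simp [lap, this]

theorem sm_cut {N : Type} [NormedAddCommGroup N] [NormedSpace ℝ N] {f : M → N} (hχ : Sm I χ)
    (h : ∀ x ∈ tsupport χ, SA I f x) : Sm I fun y => χ y • f y := fun x => by
  by_cases hx : x ∈ tsupport χ
  exacts [SA.smul (hχ x) (h x hx), sa_congr (f := fun _ => 0) contMDiffAt_const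
    ((notMem_tsupport_iff_eventuallyEq.1 hx).mono fun y hy => by simp [hy])]

/-- the weighted energy estimate -/
theorem energy {C : ℕ → ℝ} (hF : F.Tame C) (hκ : 0 < κ) (hτ : Sm I τ)
    (h : ∀ x, 4 * κ ^ 2 * ∑ a, F.D a τ x ^ 2 ≤ 1) (hA : Mc I A) (he : Sm I e)
    (hc : HasCompactSupport e) (hu : ∀ x, e x + lap I F.e F.dv A e x = u x)
    (hc' : HasCompactSupport u) {t B : ℝ} (hB : ∀ s, N2 F.toPre 0 (fun x => wc 2 s (τ x) • u x) ≤
      B * exp (κ / 2 * |s - t|)) (R : ℝ) :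
    N2 F.toPre 0 (fun x => wc R t (τ x) • e x) ≤ 32 * exp (κ * R) * cS κ * B := by
  have su : Continuous u := funext hu ▸ (he.add (sm_lap hA.sm he)).continuous
  have hW := wg_b hκ hτ h t
  have i : ∀ {u : M → V} {W : M → ℝ}, Continuous W → Continuous u → HasCompactSupport u →
      Integrable (fun x => W x * ‖u x‖ ^ 2) F.μ := fun hW hu hc =>
    (hW.mul (hu.norm.pow 2)).integrable_of_hasCompactSupport
      (hc.mono fun x hx h => hx (by simp [h]))
  have cτ := hτ.continuous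
  have h1 := ws (μ := F.μ) cτ.measurable (fun x => sq_nonneg ‖u x‖) (by
    simpa using i continuous_one su hc') hκ (t := t) (B := B) fun s => by
      simpa only [n2_zero_eq, norm_smul, mul_pow, Real.norm_eq_abs, sq_abs] using hB s
  have h2 := Dgr80.wk0 (g := fun _ _ => 0) (Dgr80.exists_cut (Exh.of_tame hF)) hA hW he su
    (fun _ => contMDiff_const) (fun x => by simp [hu, Dgr80.dvn, nab])
    (i hW.sm.continuous he.continuous hc) (D := κ * (cS κ * B)) (by
      refine (LB.mul ⟨i (by fun_prop) su hc', h1⟩ hκ.le).mono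
        (Continuous.aestronglyMeasurable (by have := hW.sm.continuous; fun_prop))
        (fun x => mul_nonneg (hW.pos x).le (by positivity)) fun x => ?_
      simp only [norm_zero, sq, mul_zero, Finset.sum_const_zero, add_zero, ← mul_assoc κ]
      exact mul_le_mul_of_nonneg_right (Dgr80.b_le_exp hκ _) (by positivity))
  have := continuous_wc (r := R) (t := t)
  have := he.continuous
  refine ((h2.mul (c := 4 / κ * exp (κ * R)) (by positivity)).mono
    (g' := fun x => ‖wc R t (τ x) • e x‖ ^ 2) (Continuous.aestronglyMeasurable (by fun_prop))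
    (fun _ => sq_nonneg _) fun x => ?_).2.trans (le_of_eq (by field_simp; ring))
  have p := mul_nonneg (hW.pos x).le (Dgr80.g2_nonneg (F := F) (A := A) (u := e) x)
  rcases lt_or_ge R |τ x - t| with h | h
  · rw [wc_zero h, zero_smul, norm_zero, sq, mul_zero]
    have := hW.pos x
    have := Dgr80.g2_nonneg (F := F) (A := A) (u := e) x
    positivity
  · have h3 : 1 ≤ 4 / κ * exp (κ * R) * b κ (τ x - t) := by
      refine le_trans ?_ (mul_le_mul_of_nonneg_left (Dgr80.b_ge hκ _) (by positivity))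
      rw [mul_mul_mul_comm, ← exp_add, div_mul_div_comm, mul_comm 4, div_self (by positivity),
        one_mul]
      exact one_le_exp (by nlinarith)
    rw [norm_smul, mul_pow, Real.norm_eq_abs, sq_abs, ← mul_assoc]
    exact mul_le_mul ((pow_le_one₀ wc_mem.1 wc_mem.2).trans h3)
      (le_add_of_nonneg_right (Dgr80.g2_nonneg x)) (sq_nonneg _) (by linarith)

end pt

theorem NB.split {F : 𝒟 → Fr I M ι} {l : Filter 𝒟} {m : 𝒟 → ℝ} {k : ℕ} {N : 𝒟 → Type}
    [∀ d, NormedAddCommGroup (N d)] [∀ d, NormedSpace ℝ (N d)] {f : ∀ d, M → N d} (S : Set 𝒟)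
    (h : NB F (l ⊓ 𝓟 S) m k f) (h' : NB F (l ⊓ 𝓟 Sᶜ) m k f) : NB F l m k f := by
  obtain ⟨K, hK, h⟩ := h
  obtain ⟨K', hK', h'⟩ := h'
  refine ⟨K + K', by positivity, ((eventually_inf_principal.1 h).and
    (eventually_inf_principal.1 h')).mono fun d h => ?_⟩
  have := sq_nonneg (m d)
  by_cases hd : d ∈ S
  · exact ⟨(h.1 hd).1, (h.1 hd).2.1, (h.1 hd).2.2.1, (h.1 hd).2.2.2.trans (by nlinarith)⟩
  · exact ⟨(h.2 hd).1, (h.2 hd).2.1, (h.2 hd).2.2.1, (h.2 hd).2.2.2.trans (by nlinarith)⟩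

namespace Cx
variable {X : Cx I M ι 𝒟} {L L' R κ : ℝ} {ρ w : 𝒟 → ℝ → ℝ} {k n : ℕ}
  {V : 𝒟 → Type} [∀ d, NormedAddCommGroup (V d)] [∀ d, InnerProductSpace ℝ (V d)]
  {N N' N'' : 𝒟 → Type} [∀ d, NormedAddCommGroup (N d)] [∀ d, NormedSpace ℝ (N d)]
  [∀ d, NormedAddCommGroup (N' d)] [∀ d, NormedSpace ℝ (N' d)]
  [∀ d, NormedAddCommGroup (N'' d)] [∀ d, NormedSpace ℝ (N'' d)]

variable (X) in
/-- admissible error weights: rate `κ / 8`, at least `1` at the ends of the band -/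
structure Rt (κ : ℝ) (ρ : 𝒟 → ℝ → ℝ) : Prop where
  κ0 : 0 < κ
  wg : ∀ᶠ d in X.l, ∀ x, 4 * κ ^ 2 * ∑ a, (X.F d).D a (X.τ d) x ^ 2 ≤ 1
  lw : X.Lw (κ / 8) ρ
  off : ∀ᶠ d in X.l, (∀ a ∈ X.p d, 1 ≤ ρ d a) ∧ ∀ a ∈ X.q d, 1 ≤ ρ d a

/-- the radius at which tails are below the weight -/
def rad (κ : ℝ) (ρ : 𝒟 → ℝ → ℝ) (R : ℝ) (z : 𝒟 × ℝ) : ℝ := max R (-4 * log (ρ z.1 z.2) / κ)

theorem Rt.rad_in (h : X.Rt κ ρ) (hL : 0 ≤ L) (hR : 0 ≤ R) : ∀ᶠ z in X.lw (2 * L + R),
    z.2 ∈ X.In (L + rad κ ρ R z) z.1 ∧ 0 < ρ z.1 z.2 ∧ exp (-(κ / 4 * rad κ ρ R z)) ≤ ρ z.1 z.2 := by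
  filter_upwards [lw_in, ev_fst h.lw.2, ev_fst h.off] with z h1 h2 h3
  have κ0 := h.κ0
  have p := (h2 0 z.2).1
  have key : ∀ a, 1 ≤ ρ z.1 a → -4 * log (ρ z.1 z.2) / κ ≤ |a - z.2| / 2 := fun a ha => by
    have := log_nonneg (ha.trans (h2 a z.2).2)
    rw [log_mul (exp_pos _).ne' p.ne', log_exp] at this
    rw [div_le_iff₀ κ0]; linarith
  refine ⟨⟨fun a ha => ?_, fun a ha => ?_⟩, p, ?_⟩
  · have := h1.1 a ha
    have h4 := key a (h3.1 a ha)
    rw [abs_of_nonpos (by linarith)] at h4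
    have : rad κ ρ R z ≤ z.2 - a - L := max_le (by linarith) (by linarith)
    linarith
  · have := h1.2 a ha
    have h4 := key a (h3.2 a ha)
    rw [abs_of_nonneg (by linarith)] at h4
    have : rad κ ρ R z ≤ a - z.2 - L := max_le (by linarith) (by linarith)
    linarith
  · rw [← le_log_iff_exp_le p]
    have : -4 * log (ρ z.1 z.2) / κ ≤ rad κ ρ R z := le_max_right _ _
    rw [div_le_iff₀ κ0] at this; linarith

variable (X) in
/-- bounds on all unit windows, growing exponentially away from the centre -/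
def WB (L κ : ℝ) (ρ : 𝒟 → ℝ → ℝ) (u : ∀ z : 𝒟 × ℝ, M → N z.1) : Prop :=
  NB (N := fun e : (𝒟 × ℝ) × ℝ => N e.1.1) (fun e => X.F e.1.1) (comap Prod.fst (X.lw L))
    (fun e => ρ e.1.1 e.1.2 * exp (κ / 4 * |e.2 - e.1.2|)) 0
    fun e x => X.η 2 (e.1.1, e.2) x • u e.1 x

theorem wb {γ : 𝒟 × ℝ → M → ℝ} {g : ∀ d, M → N d} {c : ℝ}
    (hγ : Bk (N := fun _ => ℝ) (pre X.F') (X.lw L) (un _ M) 1 0 γ) (h : X.HL L' w 0 g)
    (hm : ∀ᶠ z in X.lw L, 0 ≤ ρ z.1 z.2 ∧ ∀ s, ∀ x ∈ X.W 2 (z.1, s), γ z x ≠ 0 →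
      s ∈ X.In (L' + 2) z.1 ∧ w z.1 s ≤ c * (ρ z.1 z.2 * exp (κ / 4 * |s - z.2|))) :
    X.WB L κ ρ fun z x => γ z x • g z.1 x := by
  have hm' := tendsto_comap (f := Prod.fst (β := ℝ)).eventually hm
  have p : ∀ᶠ e : (𝒟 × ℝ) × ℝ in comap Prod.fst (X.lw L),
      0 ≤ ρ e.1.1 e.1.2 * exp (κ / 4 * |e.2 - e.1.2|) :=
    hm'.mono fun e h => mul_nonneg h.1 (exp_pos _).le
  refine NB.split {e | ∃ x ∈ X.W 2 (e.1.1, e.2), γ e.1 x ≠ 0} ?_ ((NB.zero
    (p.filter_mono inf_le_left)).congr (eventually_inf_principal.2 (.of_forall fun e he =>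
      funext fun x => ?_)))
  · have h2 := eventually_inf_principal.2 (hm'.mono fun e h (he : e ∈ {e : (𝒟 × ℝ) × ℝ |
      ∃ x ∈ X.W 2 (e.1.1, e.2), γ e.1 x ≠ 0}) => h.2 e.2 _ he.choose_spec.1 he.choose_spec.2)
    have h3 : Tendsto (fun e : (𝒟 × ℝ) × ℝ => (e.1.1, e.2)) (comap Prod.fst (X.lw L) ⊓
        𝓟 {e | ∃ x ∈ X.W 2 (e.1.1, e.2), γ e.1 x ≠ 0}) (X.lw (L' + 2)) :=
      tendsto_inf.2 ⟨tendsto_comap_iff.2 (((lw_fst (L := L)).comp
        (tendsto_comap (f := Prod.fst))).mono_left inf_le_left), tendsto_principal.2 (h2.mono fun e h => h.1)⟩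
    refine ((((h 2 zero_le_two).comap h3).wt (c := c)
      (((p.filter_mono inf_le_left).and h2).mono fun e h => ⟨h.1, h.2.2⟩)).smul
      (Bk.comap (φ := Prod.fst) (tendsto_comap.mono_left inf_le_left) hγ :)).congr
      (.of_forall fun e => funext fun x => smul_comm _ _ _)
  · beta_reduce
    by_cases hx : x ∈ X.W 2 (e.1.1, e.2)
    · rw [not_not.1 fun h => he ⟨x, hx, h⟩, zero_smul, smul_zero]
    · rw [η_zero hx, zero_smul]

/-- **exponential locality** -/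
theorem Hk.diff (hρ : X.Rt κ ρ) {A : ∀ d, ι → M → V d →L[ℝ] V d} {e f : ∀ d, M → V d}
    (hA : X.Ev fun d x => ∀ a, Skew (A d a x) ∧ SA I (A d a) x)
    (he : X.Ev fun d x => e d x + lap I (X.F d).e (X.F d).dv (A d) (e d) x = f d x)
    (h0 : X.Hk 1 0 e) (h1 : ∀ a, X.Hk 1 0 fun d => Wz78.nab I (X.F d).e (A d) a (e d))
    (hf : X.Hk ρ 0 f) : X.Hk ρ 0 e := by
  obtain ⟨L₂, hL₂, hs⟩ := (hA.and (he.and h0.sa))
  obtain ⟨L₀, hL₀, h0⟩ := h0
  obtain ⟨L₁, hL₁, hf⟩ := hf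
  choose L' hL' h1 using h1
  have h2 := fun a => Finset.single_le_sum (fun a _ => hL' a) (Finset.mem_univ a)
  have h3 : 0 ≤ ∑ a, L' a := Finset.sum_nonneg fun a _ => hL' a
  obtain ⟨L, hL⟩ : ∃ L, L = L₀ + L₁ + L₂ + ∑ a, L' a := ⟨_, rfl⟩
  have κ0 := hρ.κ0
  refine ⟨2 * (L + 4) + 1, by rw [hL]; positivity, fun R hR => ?_⟩
  rw [add_assoc, add_comm 1]
  have hr := hρ.rad_in (L := L + 4) (R := R + 1) (by rw [hL]; positivity) (by positivity)
  set r := rad κ ρ (R + 1)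
  have hη' : ∀ (r : 𝒟 × ℝ → ℝ) k, Bk (N := fun _ => ℝ) (pre X.F') (X.lw (2 * (L + 4) + (R + 1)))
      (un _ M) 1 k fun z => X.η (r z) z := fun r k => bk_η (φ := id) lw_fst r k
  have hη := hη' r
  have hτ := ev_fst (L := 2 * (L + 4) + (R + 1)) X.sτ
  have tri : ∀ {z : 𝒟 × ℝ} {s x}, x ∈ X.W 2 (z.1, s) → x ∈ X.W (r z) z → |s - z.2| ≤ r z + 2 :=
    fun {z s x} h h' => (abs_sub_le s (X.τ z.1 x) z.2).trans (by
      rw [abs_sub_comm s]; exact (add_le_add h h').trans_eq (add_comm _ _))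
  have hin : ∀ {z : 𝒟 × ℝ} {s x}, z.2 ∈ X.In (L + 4 + r z) z.1 → x ∈ X.W 2 (z.1, s) →
      x ∈ X.W (r z) z → s ∈ X.In (L + 2) z.1 := fun h h1 h2 =>
    Dp_near (Nd18.Dp_mono (by linarith) h) (tri h1 h2)
  have w1 : X.WB _ κ ρ fun z x => X.η (r z) z x • f z.1 x := wb (c := 1) (hη 0)
    (hf.mono (L' := L) (by linarith)) (by
      filter_upwards [hr, ev_fst hρ.lw.2] with z hr hw
      refine ⟨hr.2.1.le, fun s x hx h => ⟨hin hr.1 hx (not_not.1 fun e => h (η_zero e)),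
        (hw s z.2).2.trans ?_⟩⟩
      rw [one_mul, mul_comm]
      exact mul_le_mul_of_nonneg_left (exp_le_exp.2 (by nlinarith [abs_nonneg (s - z.2)])) hr.2.1.le)
  have w2 : ∀ {γ : 𝒟 × ℝ → M → ℝ} {g : ∀ d, M → V d},
      Bk (N := fun _ => ℝ) (pre X.F') (X.lw (2 * (L + 4) + (R + 1))) (un _ M) 1 0 γ →
      X.HL L 1 0 g → (∀ z x c, X.η (r z) z =ᶠ[𝓝 x] (fun _ => c) → γ z x = 0) →
      X.WB (2 * (L + 4) + (R + 1)) κ ρ fun z x => γ z x • g z.1 x := fun hγ hg h0 =>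
    wb (c := exp κ) hγ hg (by
      filter_upwards [hr, hτ] with z hr hτ
      refine ⟨hr.2.1.le, fun s x hx h => ⟨hin hr.1 hx
        (not_not.1 fun e => h (h0 _ _ _ (η_ev0 hτ.1 e))), ?_⟩⟩
      have h4 : r z - 2 < |X.τ z.1 x - z.2| :=
        not_le.1 fun e => h (h0 _ _ _ (η_ev (R := r z - 2) hτ.1 e (by linarith)))
      have h5 := abs_sub_le (X.τ z.1 x) s z.2
      have h6 : |X.τ z.1 x - s| ≤ 2 := hx
      refine le_trans ?_ (mul_le_mul_of_nonneg_left (mul_le_mul_of_nonneg_right hr.2.2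
        (exp_pos _).le) (exp_pos _).le)
      rw [← exp_add, ← exp_add]
      exact one_le_exp (by nlinarith))
  have z1 : ∀ {z x c} a, X.η (r z) z =ᶠ[𝓝 x] (fun _ => c) → (X.F z.1).D a (X.η (r z) z) =ᶠ[𝓝 x]
      fun _ => 0 := fun a h => (D_ev h a).trans (.of_forall fun y => congrFun (dv_const _) y)
  have z2 : ∀ {z x c} a, X.η (r z) z =ᶠ[𝓝 x] (fun _ => c) →
      (X.F z.1).D a ((X.F z.1).D a (X.η (r z) z)) x = 0 := fun a h =>
    (D_ev (z1 a h) a).self_of_nhds.trans (congrFun (dv_const _) _)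
  have hdv : ∀ a, Bk (N := fun _ => ℝ) (pre X.F') (X.lw (2 * (L + 4) + (R + 1))) (un _ M) 1 0
      fun z => (X.F z.1).dv a := fun a => .of_CBs (tame'.mono fun _ h => h.dv a)
  obtain ⟨K, hK, w3⟩ := w1.sub (NB.sum Finset.univ w1.nn fun a _ =>
    (w2 ((Bk.const (.const ‖(2 : ℝ)‖)).smulR ((hη 1).D a)) ((h1 a).mono (by linarith [h2 a]))
      fun z x c h => by simp [(z1 a h).self_of_nhds]).add
    (w2 ((((hη 2).D a).D a).add ((hdv a).smulR ((hη 1).D a))) (h0.mono (by linarith))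
      fun z x c h => by simp [(z1 a h).self_of_nhds, z2 a h]))
  refine ⟨32 * exp (κ * R) * cS κ * K, by have := cS_nonneg κ; positivity, ?_⟩
  filter_upwards [eventually_comap.1 w3, hr, hτ, ev_fst hs, ev_fst hρ.wg, tame', (hη 0).sa,
    (hη' (fun z => r z + 2) 0).sa, ev_fst X.vol, (bk_η' R 0).sa]
    with z w3 hr hτ hs hg hF s1 s2 hv s3
  have r1 : R + 1 ≤ r z := le_max_left _ _
  have hb : ∀ x ∈ X.W (r z + 2) z, _ := fun x hx =>
    hs x (W_bd (Nd18.Dp_mono (by linarith) hr.1) hx)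
  have cW : IsCompact (X.W (r z) z) := (hv z.2 (r z) (Nd18.Dp_mono (by linarith) hr.1)).1
  have hW : X.W (r z) z ⊆ X.W (r z + 2) z := W_mono (by linarith)
  have se : Sm I fun x => X.η (r z) z x • e z.1 x :=
    sm_cut (fun x => s1 x trivial) fun x hx => (hb x (hW (ts_η hτ.1 hx))).2.2
  have ee : (fun x => X.η R z x • e z.1 x) = fun x => X.η R z x • X.η (r z) z x • e z.1 x :=
    funext fun x => by
      by_cases hx : x ∈ X.W R z
      · rw [η_one hx r1, one_smul]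
      · rw [η_zero hx, zero_smul, zero_smul]
  have ce : HasCompactSupport fun x => X.η (r z) z x • e z.1 x :=
    .intro cW fun x hx => by rw [η_zero hx, zero_smul]
  rw [ee, mul_assoc _ K]
  refine ⟨hr.2.1.le, ContMDiff.smul (fun x => s3 x trivial) se, ce.smul_left,
    energy hF κ0 hτ.1 hg (A := fun a x => X.η (r z + 2) z x • A z.1 a x)
      (u := fun x => X.η (r z) z x • f z.1 x - ∑ a, ((2 * (X.F z.1).D a (X.η (r z) z) x) •
        Wz78.nab I (X.F z.1).e (A z.1) a (e z.1) x + ((X.F z.1).D a ((X.F z.1).D a (X.η (r z) z)) x +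
        (X.F z.1).dv a x * (X.F z.1).D a (X.η (r z) z) x) • e z.1 x))
      ⟨fun a => sm_cut (fun x => s2 x trivial) fun x hx => ((hb x (ts_η hτ.1 hx)).1 a).2,
        fun a x v v' => ?_⟩ se ce (fun x => ?_) (.intro cW fun x hx => ?_) (fun s => ?_) R⟩
  · by_cases hx : x ∈ X.W (r z + 2) z
    · simp only [smul_apply, real_inner_smul_left, real_inner_smul_right, ((hb x hx).1 a).1 v v',
        mul_neg]
    · simp [η_zero hx]
  · by_cases hx : x ∈ X.W (r z) z
    · rw [Eqv71.lap_congrA (A' := A z.1) _ ((η_ev hτ.1 hx le_rfl).mono fun y hy a => by simp [hy]),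
        lap_smul (fun a => ((hb x (hW hx)).1 a).2) (s1 x trivial) (hb x (hW hx)).2.2,
        ← (hb x (hW hx)).2.1, smul_add, add_sub_assoc]
    · have e0 := η_ev0 hτ.1 hx
      rw [Eqv71.lap_congr (t := fun _ => 0) (e0.mono fun y hy => by simp [hy])]
      simp [η_zero hx, fun a => (z1 a e0).self_of_nhds, fun a => z2 a e0, lap_zero]
  · have e0 := η_ev0 hτ.1 hx
    simp [η_zero hx, fun a => (z1 a e0).self_of_nhds, fun a => z2 a e0]
  · have := (w3 (z, s) rfl).2.2.2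
    rw [mul_pow, ← exp_nat_mul, ← mul_assoc] at this
    convert this using 3
    · simp [η, smul_sub, Finset.smul_sum]
    · push_cast; ring

end Cx

end Crest.Agent.X212.Rsp69
end
end

-- ▼ part X212/Rsp69/Pr
section

/-! Row 212, RESP (helper69): pairs of sections which are close deep inside a band. -/

set_option autoImplicit false
set_option linter.unusedSectionVars false
noncomputable section
open scoped Manifold ContDiff Topology InnerProductSpace
open MeasureTheory Set Function Filter Real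

namespace Crest.Agent.X212.Rsp69
open An Sob92 Wz78

variable {E : Type} [NormedAddCommGroup E] [NormedSpace ℝ E] [FiniteDimensional ℝ E]
  [MeasurableSpace E] [BorelSpace E]
  {HM : Type} [TopologicalSpace HM] {I : ModelWithCorners ℝ E HM} [I.Boundaryless]
  {M : Type} [TopologicalSpace M] [ChartedSpace HM M] [IsManifold I ∞ M]
  [MeasurableSpace M] [T2Space M] [BorelSpace M] [SecondCountableTopology M]
  {ι : Type} [Fintype ι] {𝒟 : Type*}

namespace Cx
variable {X : Cx I M ι 𝒟} {κ c : ℝ} {ρ w : 𝒟 → ℝ → ℝ} {k n : ℕ}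
  {V : 𝒟 → Type} [∀ d, NormedAddCommGroup (V d)] [∀ d, InnerProductSpace ℝ (V d)]
  {N N' N'' : 𝒟 → Type} [∀ d, NormedAddCommGroup (N d)] [∀ d, NormedSpace ℝ (N d)]
  [∀ d, NormedAddCommGroup (N' d)] [∀ d, NormedSpace ℝ (N' d)]
  [∀ d, NormedAddCommGroup (N'' d)] [∀ d, NormedSpace ℝ (N'' d)]

theorem Lw.zero (hw : X.Lw c w) (k : ℕ) : X.Hk w k fun d _ => (0 : N d) :=
  Bd.hk hw ⟨0, le_rfl, .zero (hw.2.mono fun _ h _ _ => (h 0 _).1.le)⟩

variable (X) in
/-- bounded pairs whose difference is bounded by `ρ` -/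
structure Pr (ρ : 𝒟 → ℝ → ℝ) (k : ℕ) (u : ∀ d, Bool → M → N d) : Prop where
  b : ∀ i, X.Hk 1 k fun d => u d i
  d : X.Hk ρ k fun d x => u d true x - u d false x

namespace Pr
variable {u v : ∀ d, Bool → M → N d}

theorem of_eq (hw : X.Lw c ρ) (h : ∀ i, X.Hk 1 k fun d => u d i)
    (e : X.Ev fun d x => u d true x = u d false x) : X.Pr ρ k u :=
  ⟨h, (hw.zero k).congr (e.mono fun _ _ e => (sub_eq_zero.2 e).symm)⟩

theorem same (hw : X.Lw c ρ) {f : ∀ d, M → N d} (h : X.Hk 1 k f) : X.Pr ρ k fun d _ => f d :=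
  of_eq hw (fun _ => h) (.of_ev (.of_forall fun _ _ => rfl))

theorem congr (h : X.Pr ρ k u) (e : X.Ev fun d x => ∀ i, u d i x = v d i x) : X.Pr ρ k v :=
  ⟨fun i => (h.b i).congr (e.mono fun _ _ e => e i), h.d.congr (e.mono fun _ _ e => by rw [e, e])⟩

theorem congr' (h : X.Pr ρ k u) (e : ∀ d i x, u d i x = v d i x) : X.Pr ρ k v :=
  h.congr (.of_ev (.of_forall fun d x i => e d i x))

theorem of_le {j : ℕ} (h : X.Pr ρ k u) (hj : j ≤ k) : X.Pr ρ j u :=
  ⟨fun i => (h.b i).of_le hj, h.d.of_le hj⟩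

theorem sa (h : X.Pr ρ k u) : X.Ev fun d x => ∀ i, SA I (u d i) x := Ev.all fun i => (h.b i).sa

theorem add (h : X.Pr ρ k u) (h' : X.Pr ρ k v) : X.Pr ρ k fun d i x => u d i x + v d i x :=
  ⟨fun i => (h.b i).add (h'.b i), (h.d.add h'.d).congr' fun _ _ => (add_sub_add_comm ..).symm⟩

theorem clm {T : ∀ d, N d →L[ℝ] N' d} (hT : Ub X.l fun d => ‖T d‖) (h : X.Pr ρ k u) :
    X.Pr ρ k fun d i x => T d (u d i x) :=
  ⟨fun i => (h.b i).clm hT, (h.d.clm hT).congr' fun _ _ => map_sub ..⟩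

theorem neg (h : X.Pr ρ k u) : X.Pr ρ k fun d i x => -u d i x :=
  ⟨fun i => (h.b i).neg, h.d.neg.congr' fun _ _ => neg_sub' ..⟩

theorem sub (h : X.Pr ρ k u) (h' : X.Pr ρ k v) : X.Pr ρ k fun d i x => u d i x - v d i x := by
  simpa only [sub_eq_add_neg] using h.add h'.neg

theorem zero (hw : X.Lw c ρ) : X.Pr ρ k fun d _ _ => (0 : N d) := same hw (lw_one.zero k)

theorem sum (hw : X.Lw c ρ) {α : Type*} (s : Finset α) {u : α → ∀ d, Bool → M → N d}
    (h : ∀ a ∈ s, X.Pr ρ k (u a)) : X.Pr ρ k fun d i x => ∑ a ∈ s, u a d i x :=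
  ⟨fun i => .sum s (lw_one.zero (N := N) k) fun a ha => (h a ha).b i,
    (Hk.sum s (hw.zero (N := N) k) fun a ha => (h a ha).d).congr' fun _ _ => Finset.sum_sub_distrib ..⟩

theorem bil {B : ∀ d, N d →L[ℝ] N' d →L[ℝ] N'' d} (hB : Ub X.l fun d => ‖B d‖) {i j : ℕ}
    (h : X.Pr ρ i u) {v : ∀ d, Bool → M → N' d} (h' : X.Pr ρ j v) (hi : k ≤ i) (hj : k ≤ j)
    (hk : k + 1 ≤ (i - 3) + (j - 3)) : X.Pr ρ k fun d i x => B d (u d i x) (v d i x) := by
  refine ⟨fun i => ?_, ?_⟩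
  · exact (Hk.bil hB (h.b i) (h'.b i) hi hj hk).wt (c := 1) (.of_forall fun _ _ => by simp)
  have h1 := Hk.bil hB h.d (h'.b true) hi hj hk
  have h2 := Hk.bil hB (h.b false) h'.d hi hj hk
  simp only [Pi.one_apply, mul_one, one_mul] at h1 h2
  exact (h1.add h2).congr' fun _ _ => by simp

section
variable (hn : 7 ≤ n) (hk : k ≤ n)
include hn hk

theorem bilR {B : ∀ d, N d →L[ℝ] N' d →L[ℝ] N'' d} (hB : Ub X.l fun d => ‖B d‖)
    (h : X.Pr ρ n u) {v : ∀ d, Bool → M → N' d} (h' : X.Pr ρ k v) :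
    X.Pr ρ k fun d i x => B d (u d i x) (v d i x) := bil hB h h' hk le_rfl (by omega)

theorem app {T : ∀ d, Bool → M → N d →L[ℝ] N' d} (h : X.Pr ρ n T) (h' : X.Pr ρ k u) :
    X.Pr ρ k fun d i x => T d i x (u d i x) :=
  bilR hn hk (B := fun d => ContinuousLinearMap.id ℝ (N d →L[ℝ] N' d))
    (.of_le 1 fun _ => ContinuousLinearMap.norm_id_le) h h'

theorem smul {r : 𝒟 → Bool → M → ℝ} (h : X.Pr (N := fun _ => ℝ) ρ n r) (h' : X.Pr ρ k u) :
    X.Pr ρ k fun d i x => r d i x • u d i x :=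
  bilR hn hk (B := fun d => ContinuousLinearMap.lsmul ℝ ℝ (E := N d))
    (.of_le 1 fun _ => ContinuousLinearMap.opNorm_lsmul_le) h h'

end

theorem D (h : X.Pr ρ (k + 1) u) (a : ι) : X.Pr ρ k fun d i => (X.F d).D a (u d i) :=
  ⟨fun i => (h.b i).D a, (h.d.D a).congr (h.sa.mono fun _ _ h => dv_sub (h _).md (h _).md)⟩

theorem nab (hn : 7 ≤ n) (hk : k ≤ n) {A : ∀ d, Bool → ι → M → N d →L[ℝ] N d}
    (hA : ∀ a, X.Pr ρ n fun d i => A d i a) (h : X.Pr ρ (k + 1) u) (a : ι) :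
    X.Pr ρ k fun d i => Wz78.nab I (X.F d).e (A d i) a (u d i) :=
  (h.D a).add ((hA a).app hn hk (h.of_le k.le_succ))

theorem lap (hw : X.Lw c ρ) (hn : 7 ≤ n) (hk : k ≤ n) {A : ∀ d, Bool → ι → M → N d →L[ℝ] N d}
    (hA : ∀ a, X.Pr ρ (n + 1) fun d i => A d i a) (h : X.Pr ρ (k + 2) u) :
    X.Pr ρ k fun d i => lap I (X.F d).e (X.F d).dv (A d i) (u d i) :=
  have h1 := nab (by omega) (by omega) hA h
  (sum hw Finset.univ fun a _ => (nab (by omega) (by omega) hA (h1 a) a).add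
    ((same hw (Hk.dv a)).smul hn hk ((h1 a).of_le k.le_succ))).neg

theorem comp (hw : X.Lw c ρ) {P Q : Type} [NormedAddCommGroup P] [InnerProductSpace ℝ P]
    [FiniteDimensional ℝ P] [NormedAddCommGroup Q] [NormedSpace ℝ Q] {φ : P → Q}
    (hφ : ContDiff ℝ ∞ φ) (hn : 8 ≤ n) {u : 𝒟 → Bool → M → P} (h : X.Pr (N := fun _ => P) ρ n u) :
    X.Pr (N := fun _ => Q) ρ n fun d i x => φ (u d i x) :=
  ⟨fun i => (h.b i).comp hn n hφ le_rfl, Hk.comp_sub hw hn (h.b _) (h.b _) h.d n hφ le_rfl⟩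

variable {A : ∀ d, Bool → ι → M → V d →L[ℝ] V d} {R s : ∀ d, Bool → M → V d}

/-- **the resolvent step** -/
theorem res (hρ : X.Rt κ ρ) (hn : 7 ≤ n) (hk : k ≤ n) (hA : ∀ a, X.Pr ρ (n + 1) fun d i => A d i a)
    (hs : X.Ev fun d x => ∀ i a, Skew (A d i a x))
    (he : X.Ev fun d x => ∀ i, R d i x + Wz78.lap I (X.F d).e (X.F d).dv (A d i) (R d i) x = s d i x)
    (h0 : ∀ i, X.Hk 1 0 fun d => R d i) (hf : X.Pr ρ k s) : X.Pr ρ (k + 2) R := by
  have hb := fun i => Hk.lr1 (hs.mono fun _ _ h => h i) (he.mono fun _ _ h => h i) (h0 i) hn hk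
    (fun a => (hA a).b i) (hf.b i)
  have sA := Ev.all fun a => ((hA a).b false).sa
  have h1 := hf.d.sub (lap hρ.lw hn hk hA (same hρ.lw (hb true))).d
  have h2 := (hb true).sub (hb false)
  have e := ((he.and sA).and ((hb true).sa.and (hb false).sa)).mono
    (Q := fun d x => R d true x - R d false x + Wz78.lap I (X.F d).e (X.F d).dv (A d false)
      (fun x => R d true x - R d false x) x = s d true x - s d false x -
      (Wz78.lap I (X.F d).e (X.F d).dv (A d true) (R d true) x -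
        Wz78.lap I (X.F d).e (X.F d).dv (A d false) (R d true) x)) fun d x h => by
      rw [lap_sub' h.1.2 h.2.1 h.2.2, ← h.1.1, ← h.1.1]; abel
  exact ⟨hb, Hk.lr1 (hs.mono fun _ _ h => h false) e (Hk.diff hρ
    ((hs.and sA).mono fun _ _ h a => ⟨h.1 false a, h.2 a⟩) e (h2.of_le (by omega))
    (fun a => Hk.nab (n := n + 1) (by omega) (by omega) (fun a => (hA a).b false)
      (h2.of_le (by omega)) a) (h1.of_le k.zero_le)) hn hk (fun a => (hA a).b false) h1⟩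

/-- **interior regularity** for pairs of local solutions of the homogeneous equation -/
theorem lr (hw : X.Lw c ρ) (hn : 7 ≤ n) (hk : k ≤ n) (hA : ∀ a, X.Pr ρ (n + 1) fun d i => A d i a)
    (hs : X.Ev fun d x => ∀ i a, Skew (A d i a x)) {θ : ℕ → 𝒟 → M → ℝ}
    (hθ : ∀ j k, Bk (N := fun _ => ℝ) (pre X.F) X.l (un 𝒟 M) 1 k (θ j))
    (h1 : ∀ j, ∀ᶠ d in X.l, ∀ x ∈ tsupport (θ (j + 1) d), θ j d =ᶠ[𝓝 x] fun _ => 1)
    (he : X.Ev fun d x => x ∈ tsupport (θ 0 d) →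
      ∀ i, R d i x + Wz78.lap I (X.F d).e (X.F d).dv (A d i) (R d i) x = 0)
    (h0 : X.Pr ρ 0 R) : X.Pr ρ (k + 2) fun d i x => θ (k + 2 + (k + 3)) d x • R d i x := by
  have hb := fun i => Hk.lr hθ h1 (hs.mono fun _ _ h => h i) (he.mono fun _ _ h e => h e i) (h0.b i)
    hn hk (fun a => (hA a).b i) (lw_one.zero k)
  have sub : ∀ j, ∀ᶠ d in X.l, tsupport (θ j d) ⊆ tsupport (θ 0 d) := fun j => by
    induction j with
    | zero => exact .of_forall fun _ => subset_rfl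
    | succ j ih =>
      filter_upwards [ih, h1 j] with d ih h x hx
      exact ih (subset_tsupport _ (by simp [(h x hx).self_of_nhds]))
  have sA := Ev.all fun a => ((hA a).b false).sa
  have h2 := (lap hw hn hk hA (same hw (hb true))).d.neg
  have h3 := Hk.lr (θ := fun j => θ (j + (k + 3))) (fun j => hθ _)
    (fun j => by simpa only [add_right_comm j 1] using h1 (j + (k + 3))) (hs.mono fun _ _ h => h false)
    ((((he.and sA).and h0.sa).and (Ev.of_ev (((h1 (k + 2)).and (sub (k + 3))).mono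
      fun d h x (hx : x ∈ tsupport (θ (k + 3) d)) => And.intro (h.1 x hx) (h.2 hx)))).mono
      fun d x h hx => ?_) h0.d hn hk (fun a => (hA a).b false) h2
  · refine ⟨fun i => ?_, h3.congr' fun _ _ => smul_sub ..⟩
    refine (Hk.lr (θ := fun j => θ (j + (k + 3))) (fun j => hθ _)
      (fun j => by simpa only [add_right_comm j 1] using h1 (j + (k + 3))) (hs.mono fun _ _ h => h i)
      ((he.and (Ev.of_ev ((sub (0 + (k + 3))).mono fun d h x (hx : x ∈ _) => h hx))).mono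
        fun _ _ h e => h.1 (h.2 e) i) (h0.b i) hn hk (fun a => (hA a).b i) (lw_one.zero k))
  · rw [zero_add] at hx
    have e : (fun y => θ (k + 2) d y • R d true y) =ᶠ[𝓝 x] R d true :=
      (h.2 hx).1.mono fun y hy => by simp [hy]
    rw [lap_sub' h.1.1.2 (h.1.2 _) (h.1.2 _), Eqv71.lap_congr e, Eqv71.lap_congr e,
      eq_neg_of_add_eq_zero_right (h.1.1.1 (h.2 hx).2 true),
      eq_neg_of_add_eq_zero_right (h.1.1.1 (h.2 hx).2 false)]
    abel

end Pr
end Cx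

end Crest.Agent.X212.Rsp69
end
end

-- ▼ part X212/Rsp69/Tw

/-! Row 212, RESP (helper69): two manifolds which contain the same band; the word engine. -/

set_option autoImplicit false
set_option linter.unusedSectionVars false
noncomputable section
open scoped Manifold ContDiff Topology InnerProductSpace
open MeasureTheory Set Function Filter Real

namespace Crest.Agent.X212.Rsp69
open An Sob92 Wz78 Dgr80
open Mp86 (Mc)
open Pj41 (FRel)

/-- manifolds with a background -/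
structure Mf (ι lam : Type) [Fintype ι] [Fintype lam] : Type 1 where
  {E : Type}
  [i1 : NormedAddCommGroup E]
  [i2 : NormedSpace ℝ E]
  [i3 : FiniteDimensional ℝ E]
  [i4 : MeasurableSpace E]
  [i5 : BorelSpace E]
  {HM : Type}
  [i6 : TopologicalSpace HM]
  {I : ModelWithCorners ℝ E HM}
  {M : Type}
  [j1 : TopologicalSpace M]
  [j2 : ChartedSpace HM M]
  [j3 : IsManifold I ∞ M]
  [j4 : MeasurableSpace M]
  [j5 : T2Space M]
  [j6 : BorelSpace M]
  [j7 : I.Boundaryless]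
  [j8 : SecondCountableTopology M]
  B : Base M ι lam
  G : Geo I M ι lam

attribute [instance] Mf.i1 Mf.i2 Mf.i3 Mf.i4 Mf.i5 Mf.i6 Mf.j1 Mf.j2 Mf.j3 Mf.j4 Mf.j5 Mf.j6 Mf.j7
  Mf.j8

section lin
variable {U V : Type} [NormedAddCommGroup U] [InnerProductSpace ℝ U] [CompleteSpace U]
  [NormedAddCommGroup V] [InnerProductSpace ℝ V] [CompleteSpace V]

variable (U V) in
/-- the adjoint as a linear map -/
def adjL : CL (CL U V) (CL V U) := LinearMap.mkContinuous
  { toFun := fun T => ContinuousLinearMap.adjoint T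
    map_add' := map_add _
    map_smul' := fun c T => by simp } 1 fun T => by simp

theorem norm_adjL : ‖adjL U V‖ ≤ 1 := LinearMap.mkContinuous_norm_le _ zero_le_one _

/-- `tp` as a bilinear map -/
def tpL (r : CL U (CL V V)) : CL V (CL V U) := adjL U V ∘L r.flip

theorem norm_tpL (r : CL U (CL V V)) : ‖tpL r‖ ≤ ‖r‖ :=
  (ContinuousLinearMap.opNorm_comp_le _ _).trans (by
    rw [ContinuousLinearMap.opNorm_flip]
    exact mul_le_of_le_one_left r.opNorm_nonneg norm_adjL)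

variable {α : Type} [Fintype α] [DecidableEq α]

variable (V) in
/-- the inclusion of a component -/
def sgl (a : α) : CL V (Fm α V) :=
  (PiLp.continuousLinearEquiv 2 ℝ fun _ : α => V).symm.toContinuousLinearMap ∘L
    ContinuousLinearMap.single ℝ (fun _ : α => V) a

theorem sum_sgl (f : α → V) : ∑ a, sgl V a (f a) = WithLp.toLp 2 f := by
  ext b; simp [sgl, Pi.single_apply]

end lin

variable {E : Type} [NormedAddCommGroup E] [NormedSpace ℝ E] [FiniteDimensional ℝ E]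
  [MeasurableSpace E] [BorelSpace E]
  {HM : Type} [TopologicalSpace HM] {I : ModelWithCorners ℝ E HM} [I.Boundaryless]
  {M : Type} [TopologicalSpace M] [ChartedSpace HM M] [IsManifold I ∞ M]
  [MeasurableSpace M] [T2Space M] [BorelSpace M] [SecondCountableTopology M]
  {ι : Type} [Fintype ι] {𝒟 : Type*} {lam : Type} [Fintype lam]

/-- two uniformly tame manifolds which contain the band of `X` -/
structure Tw (X : Cx I M ι 𝒟) (lam : Type) [Fintype lam] where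
  S : 𝒟 → Bool → Mf ι lam
  ψ : ∀ d i, OpenPartialHomeomorph M (S d i).M
  κ : ℝ
  ρ : 𝒟 → ℝ → ℝ
  rt : X.Rt κ ρ
  iso : ∀ᶠ d in X.l, (X.F d).IsVol ∧ ∀ i, An.Iso (X.F d).toPre (S d i).G.F.toPre (ψ d i) ∧
    (S d i).G.F.IsVol ∧ (S d i).G.F.Tame X.C
  src : X.Ev fun d x => ∀ i, x ∈ (ψ d i).source

namespace Tw
open Cx
variable {X : Cx I M ι 𝒟} (T : Tw X lam) {k n j : ℕ}
  {V W : 𝒟 → Type} [∀ d, NormedAddCommGroup (V d)] [∀ d, InnerProductSpace ℝ (V d)]
  [∀ d, NormedAddCommGroup (W d)] [∀ d, InnerProductSpace ℝ (W d)]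
  {N N' N'' : 𝒟 → Type} [∀ d, NormedAddCommGroup (N d)] [∀ d, NormedSpace ℝ (N d)]
  [∀ d, NormedAddCommGroup (N' d)] [∀ d, NormedSpace ℝ (N' d)]
  [∀ d, NormedAddCommGroup (N'' d)] [∀ d, NormedSpace ℝ (N'' d)]

/-- the frames -/
abbrev F (d : 𝒟) (i : Bool) : Fr (T.S d i).I (T.S d i).M ι := (T.S d i).G.F

/-- pairs of sections -/
abbrev Sc (N : 𝒟 → Type) : Type _ := ∀ d i, (T.S d i).M → N d

/-- pairs of functions -/
abbrev Fn : Type _ := T.Sc fun _ => ℝ

/-- close on the band -/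
def EL (k : ℕ) (u : T.Sc N) : Prop := X.Pr T.ρ k fun d i x => u d i (T.ψ d i x)

/-- uniformly bounded -/
def U (u : T.Sc N) : Prop := ∃ K, 0 ≤ K ∧ ∀ᶠ d in X.l, ∀ i y, ‖u d i y‖ ≤ K

/-- in the class `Q`, uniformly bounded and close on the band -/
structure EP (Q : ∀ d i, ((T.S d i).M → N d) → Prop) (k : ℕ) (s : T.Sc N) : Prop where
  q : ∀ᶠ d in X.l, ∀ i, Q d i (s d i)
  u : T.U s
  el : T.EL k s

/-- the class of sections with bounded derivatives -/
abbrev EC (k : ℕ) (u : T.Sc N) : Prop := T.EP (fun d i => (T.F d i).Cb) k u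

variable {T} {u v : T.Sc N}

theorem lw : X.Lw (T.κ / 8) T.ρ := T.rt.lw

theorem rel : X.Ev fun d x => (X.F d).IsVol ∧ ∀ i, FRel (X.F d) (T.F d i) (T.ψ d i) (T.ψ d i).source ∧
    x ∈ (T.ψ d i).source ∧ (T.F d i).IsVol :=
  ((Ev.of_ev (P := fun _ _ => _) (T.iso.mono fun _ h _ => h)).and T.src).mono fun _ _ h =>
    ⟨h.1.1, fun i => ⟨Pj41.fRel_of_iso (h.1.2 i).1, h.2 i, (h.1.2 i).2.1⟩⟩

theorem tame : ∀ᶠ d in X.l, ∀ i, (T.F d i).Tame X.C := T.iso.mono fun _ h i => (h.2 i).2.2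

/-- global bounds give bounds on the band -/
theorem hk_of_CB {i : Bool} {C : ℝ}
    (h : ∀ᶠ d in X.l, Sm (T.S d i).I (u d i) ∧ (T.F d i).CB k (u d i) C) :
    X.Hk 1 k fun d x => u d i (T.ψ d i x) := by
  obtain ⟨L, hL, h1⟩ := T.rel
  refine Bd.hk lw_one ⟨L, hL, |C|, abs_nonneg _, (h.and h1).mono fun d h x hx =>
    ⟨zero_le_one, ((h.2 x hx).2 i).1.sm ((h.2 x hx).2 i).2.1 (h.1.1 _), fun w hw => ?_⟩⟩
  rw [((h.2 x hx).2 i).1.Dw ((h.2 x hx).2 i).2.1 w (u' := u d i) (.of_forall fun _ => rfl)]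
  simpa using CB_abs h.1.2 w hw _

theorem U.hk (h : T.U u) (hs : ∀ᶠ d in X.l, ∀ i, Sm (T.S d i).I (u d i)) (i : Bool) :
    X.Hk 1 0 fun d x => u d i (T.ψ d i x) :=
  let ⟨_, _, h⟩ := h
  hk_of_CB ((h.and hs).mono fun _ h => ⟨h.2 i, CB_zero.2 (h.1 i)⟩)

namespace U

theorem congr (h : T.U u) (e : ∀ᶠ d in X.l, ∀ i, u d i = v d i) : T.U v :=
  let ⟨K, hK, h⟩ := h
  ⟨K, hK, (h.and e).mono fun _ h i => h.2 i ▸ h.1 i⟩

theorem bil {B : ∀ d, N d →L[ℝ] N' d →L[ℝ] N'' d} (hB : Ub X.l fun d => ‖B d‖) (h : T.U u)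
    {v : T.Sc N'} (h' : T.U v) : T.U fun d i x => B d (u d i x) (v d i x) :=
  let ⟨K, hK, h⟩ := h; let ⟨K', hK', h'⟩ := h'; let ⟨C, hC, hB⟩ := hB
  ⟨C * K * K', by positivity, ((h.and h').and hB).mono fun d h i y =>
    ((B d).le_opNorm₂ _ _).trans (by gcongr; exacts [h.2, h.1.1 i y, h.1.2 i y])⟩

theorem add (h : T.U u) (h' : T.U v) : T.U fun d i x => u d i x + v d i x :=
  let ⟨K, hK, h⟩ := h; let ⟨K', hK', h'⟩ := h'
  ⟨K + K', by positivity, (h.and h').mono fun _ h i y => norm_add_le_of_le (h.1 i y) (h.2 i y)⟩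

theorem const {c : ∀ d, N d} (h : Ub X.l fun d => ‖c d‖) : T.U fun d _ _ => c d :=
  let ⟨K, hK, h⟩ := h
  ⟨K, hK, h.mono fun _ h _ _ => h⟩

end U

namespace EL

theorem congr (h : T.EL k u) (e : ∀ᶠ d in X.l, ∀ i, u d i = v d i) : T.EL k v :=
  Pr.congr h (.of_ev (e.mono fun _ e _ i => by rw [e i]))

theorem congr' (h : T.EL k u) (e : ∀ d i x, u d i x = v d i x) : T.EL k v :=
  h.congr (.of_forall fun d i => funext (e d i))

theorem of_le (h : T.EL k u) (hj : j ≤ k) : T.EL j u := Pr.of_le h hj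

theorem add (h : T.EL k u) (h' : T.EL k v) : T.EL k fun d i x => u d i x + v d i x := Pr.add h h'

theorem sub (h : T.EL k u) (h' : T.EL k v) : T.EL k fun d i x => u d i x - v d i x := Pr.sub h h'

theorem neg (h : T.EL k u) : T.EL k fun d i x => -u d i x := Pr.neg h

theorem zero : T.EL k fun d _ _ => (0 : N d) := Pr.zero lw

theorem sum {α : Type*} (s : Finset α) {u : α → T.Sc N} (h : ∀ a ∈ s, T.EL k (u a)) :
    T.EL k fun d i x => ∑ a ∈ s, u a d i x := Pr.sum lw s h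

theorem clm {L : ∀ d, N d →L[ℝ] N' d} (hL : Ub X.l fun d => ‖L d‖) (h : T.EL k u) :
    T.EL k fun d i x => L d (u d i x) := Pr.clm hL h

theorem bil (hn : 7 ≤ n) (hk : k ≤ n) {B : ∀ d, N d →L[ℝ] N' d →L[ℝ] N'' d}
    (hB : Ub X.l fun d => ‖B d‖) (h : T.EL n u) {v : T.Sc N'} (h' : T.EL k v) :
    T.EL k fun d i x => B d (u d i x) (v d i x) := Pr.bilR hn hk hB h h'

theorem app (hn : 7 ≤ n) (hk : k ≤ n) {A : T.Sc fun d => N d →L[ℝ] N' d} (h : T.EL n A)
    (h' : T.EL k u) : T.EL k fun d i x => A d i x (u d i x) := Pr.app hn hk h h'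

theorem smul (hn : 7 ≤ n) (hk : k ≤ n) {f : T.Fn} (h : T.EL n f) (h' : T.EL k u) :
    T.EL k fun d i x => f d i x • u d i x := Pr.smul hn hk h h'

theorem inner (hn : 7 ≤ n) {u v : T.Sc V} (h : T.EL n u) (h' : T.EL n v) :
    T.EL (N := fun _ => ℝ) n fun d i x => ⟪u d i x, v d i x⟫_ℝ :=
  bil hn le_rfl (B := fun d => innerSL ℝ (E := V d)) (.of_le 1 fun _ => norm_innerSL_le ℝ) h h'

theorem comp {P Q : Type} [NormedAddCommGroup P] [InnerProductSpace ℝ P] [FiniteDimensional ℝ P]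
    [NormedAddCommGroup Q] [NormedSpace ℝ Q] {φ : P → Q} (hφ : ContDiff ℝ ∞ φ) (hn : 8 ≤ n)
    {u : T.Sc fun _ => P} (h : T.EL n u) : T.EL (N := fun _ => Q) n fun d i x => φ (u d i x) :=
  Pr.comp lw hφ hn h

theorem toLp {α P : Type} [Fintype α] [NormedAddCommGroup P] [InnerProductSpace ℝ P]
    [CompleteSpace P] {u : α → T.Sc fun _ => P} (h : ∀ a, T.EL k (u a)) :
    T.EL (N := fun _ => Fm α P) k fun d i x => WithLp.toLp 2 fun a => u a d i x := by
  classical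
  exact (sum Finset.univ fun a _ => (h a).clm (L := fun _ => sgl P a) (.const _)).congr'
    fun _ _ _ => sum_sgl _

theorem D (h : T.EL (k + 1) u) (a : ι) : T.EL k fun d i => (T.F d i).D a (u d i) :=
  (Pr.D h a).congr (T.rel.mono fun _ _ h i => (h.2 i).1.D (h.2 i).2.1 a (.of_forall fun _ => rfl))

theorem nab (hn : 7 ≤ n) (hk : k ≤ n) {A : ∀ d i, ι → (T.S d i).M → N d →L[ℝ] N d}
    (hA : ∀ a, T.EL n fun d i => A d i a) (h : T.EL (k + 1) u) (a : ι) :
    T.EL k fun d i => Wz78.nab (T.S d i).I (T.F d i).e (A d i) a (u d i) :=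
  (h.D a).add ((hA a).app hn hk (h.of_le k.le_succ))

/-- **the resolvent step** -/
theorem res (hn : 7 ≤ n) (hk : k ≤ n) {A : ∀ d i, ι → (T.S d i).M → V d →L[ℝ] V d}
    (hA : ∀ a, T.EL (n + 1) fun d i => A d i a) {s R : T.Sc V}
    (h : ∀ᶠ d in X.l, ∀ i, (∀ a x, Skew (A d i a x)) ∧ (T.F d i).IsRes (A d i) (s d i) (R d i))
    (h0 : ∀ i, X.Hk 1 0 fun d x => R d i (T.ψ d i x)) (hs : T.EL k s) : T.EL (k + 2) R :=
  Pr.res (A := fun d i a x => A d i a (T.ψ d i x)) T.rt hn hk hA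
    (.of_ev (h.mono fun _ h _ i a => (h i).1 a _))
    ((T.rel.and (.of_ev (P := fun d _ => _) (h.mono fun _ h _ => h))).mono fun _ _ h i => by
      rw [(h.1.2 i).1.lap (h.1.2 i).2.1 h.1.1 (h.1.2 i).2.2 (fun _ => .of_forall fun _ => rfl)
        (.of_forall fun _ => rfl)]
      exact (h.2 i).2.2.2 _) h0 hs

end EL

namespace EP
variable {Q : ∀ d i, ((T.S d i).M → N d) → Prop}

theorem congr (h : T.EP Q k u) (e : ∀ᶠ d in X.l, ∀ i, u d i = v d i) : T.EP Q k v :=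
  ⟨(h.q.and e).mono fun _ h i => h.2 i ▸ h.1 i, h.u.congr e, h.el.congr e⟩

theorem congr' (h : T.EP Q k u) (e : ∀ d i x, u d i x = v d i x) : T.EP Q k v :=
  h.congr (.of_forall fun d i => funext (e d i))

theorem of_le (h : T.EP Q k u) (hj : j ≤ k) : T.EP Q j u := ⟨h.q, h.u, h.el.of_le hj⟩

theorem imp {Q' : ∀ d i, ((T.S d i).M → N d) → Prop} (h : T.EP Q k u)
    (e : ∀ᶠ d in X.l, ∀ i, Q' d i (u d i)) : T.EP Q' k u := ⟨e, h.u, h.el⟩

end EP

namespace EC

/-- uniformly bounded fields which agree on the band -/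
theorem fixed {C : ℕ → ℝ} (h : ∀ᶠ d in X.l, ∀ i, (T.F d i).CBs (u d i) C)
    (e : X.Ev fun d x => u d true (T.ψ d true x) = u d false (T.ψ d false x)) : T.EC k u :=
  ⟨h.mono fun _ h i => ⟨C, h i⟩, ⟨|C 0|, abs_nonneg _, h.mono fun _ h i =>
    CB_bound (CB_abs ((h i).2 0))⟩,
    Pr.of_eq lw (fun i => hk_of_CB (h.mono fun _ h => ⟨(h i).1, (h i).2 k⟩)) e⟩

theorem const {c : ∀ d, N d} (h : Ub X.l fun d => ‖c d‖) : T.EC k fun d _ _ => c d :=
  ⟨.of_forall fun _ _ => Cb_const _, .const h, Pr.same lw (Hk.const h)⟩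

theorem add (h : T.EC k u) (h' : T.EC k v) : T.EC k fun d i x => u d i x + v d i x :=
  ⟨(h.q.and h'.q).mono fun _ h i => Cb.add (h.1 i) (h.2 i), h.u.add h'.u, h.el.add h'.el⟩

theorem bil (hn : 7 ≤ n) (hk : k ≤ n) {B : ∀ d, N d →L[ℝ] N' d →L[ℝ] N'' d}
    (hB : Ub X.l fun d => ‖B d‖) (h : T.EC n u) {v : T.Sc N'} (h' : T.EC k v) :
    T.EC k fun d i x => B d (u d i x) (v d i x) :=
  ⟨(h.q.and h'.q).mono fun _ h i => Cb_bil _ (h.1 i) (h.2 i), h.u.bil hB h'.u,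
    h.el.bil hn hk hB h'.el⟩

theorem app (hn : 7 ≤ n) (hk : k ≤ n) {A : T.Sc fun d => N d →L[ℝ] N' d} (h : T.EC n A)
    (h' : T.EC k u) : T.EC k fun d i x => A d i x (u d i x) :=
  bil hn hk (B := fun d => ContinuousLinearMap.id ℝ (N d →L[ℝ] N' d))
    (.of_le 1 fun _ => ContinuousLinearMap.norm_id_le) h h'

theorem smul (hn : 7 ≤ n) (hk : k ≤ n) {f : T.Fn} (h : T.EC n f) (h' : T.EC k u) :
    T.EC k fun d i x => f d i x • u d i x :=
  bil hn hk (B := fun d => ContinuousLinearMap.lsmul ℝ ℝ (E := N d))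
    (.of_le 1 fun _ => ContinuousLinearMap.opNorm_lsmul_le) h h'

theorem clm {L : ∀ d, N d →L[ℝ] N' d} (hL : Ub X.l fun d => ‖L d‖) (h : T.EC k u) :
    T.EC k fun d i x => L d (u d i x) := app (n := k + 7) (by omega) (by omega) (const hL) h

theorem neg (h : T.EC k u) : T.EC k fun d i x => -u d i x :=
  h.clm (L := fun d => -ContinuousLinearMap.id ℝ (N d))
    (.of_le 1 fun _ => by simpa using ContinuousLinearMap.norm_id_le)

theorem sub (h : T.EC k u) (h' : T.EC k v) : T.EC k fun d i x => u d i x - v d i x := by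
  simpa only [sub_eq_add_neg] using h.add h'.neg

theorem sum {α : Type*} (s : Finset α) {u : α → T.Sc N} (h : ∀ a ∈ s, T.EC k (u a)) :
    T.EC k fun d i x => ∑ a ∈ s, u a d i x := by
  classical
  induction s using Finset.induction_on with
  | empty => simpa using const (c := fun d => (0 : N d)) (.of_le 0 fun _ => by simp)
  | insert a s ha ih =>
    simp only [Finset.sum_insert ha]
    exact (h a (Finset.mem_insert_self _ _)).add (ih fun i hi => h i (Finset.mem_insert_of_mem hi))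

theorem inner (hn : 7 ≤ n) {u v : T.Sc V} (h : T.EC n u) (h' : T.EC n v) :
    T.EC (N := fun _ => ℝ) n fun d i x => ⟪u d i x, v d i x⟫_ℝ :=
  bil hn le_rfl (B := fun d => innerSL ℝ (E := V d)) (.of_le 1 fun _ => norm_innerSL_le ℝ) h h'

theorem comp {P Q : Type} [NormedAddCommGroup P] [InnerProductSpace ℝ P] [FiniteDimensional ℝ P]
    [NormedAddCommGroup Q] [NormedSpace ℝ Q] {φ : P → Q} (hφ : ContDiff ℝ ∞ φ) (hn : 8 ≤ n)
    {u : T.Sc fun _ => P} (h : T.EC n u) : T.EC (N := fun _ => Q) n fun d i x => φ (u d i x) := by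
  refine ⟨h.q.mono fun _ h i => Cb_nem hφ (h i), ?_, h.el.comp hφ hn⟩
  obtain ⟨K, -, h⟩ := h.u
  have := FiniteDimensional.proper_real P
  obtain ⟨C, hC⟩ := (isCompact_closedBall (0 : P) K).exists_bound_of_continuousOn
    hφ.continuous.continuousOn
  exact ⟨|C|, abs_nonneg _, h.mono fun d h i y => (hC _ (by simpa using h i y)).trans (le_abs_self C)⟩

end EC

/-! ### words -/

/-- families of lists all of whose letters lie in the class `P` -/
inductive Fa {β : 𝒟 → Bool → Type} (P : (∀ d i, β d i) → Prop) : (∀ d i, List (β d i)) → Prop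
  | nil : Fa P fun _ _ => []
  | cons {t w} : P t → Fa P w → Fa P fun d i => t d i :: w d i

section fa
variable {β γ : 𝒟 → Bool → Type} {P : (∀ d i, β d i) → Prop} {P' : (∀ d i, γ d i) → Prop}
  {w w' : ∀ d i, List (β d i)}

theorem Fa.list {α : Type} {L : α → ∀ d i, β d i} :
    ∀ {u : List α}, (∀ a ∈ u, P (L a)) → Fa P fun d i => u.map fun a => L a d i
  | [], _ => .nil
  | a :: _, h => .cons (h a List.mem_cons_self) (list fun b hb => h b (List.mem_cons_of_mem a hb))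

theorem Fa.map (h : Fa P w) {f : ∀ d i, β d i → γ d i} (e : ∀ t, P t → P' fun d i => f d i (t d i)) :
    Fa P' fun d i => (w d i).map (f d i) := by
  induction h with
  | nil => exact .nil
  | cons ht _ ih => exact .cons (e _ ht) ih

theorem Fa.append (h : Fa P w) (h' : Fa P w') : Fa P fun d i => w d i ++ w' d i := by
  induction h with
  | nil => exact h'
  | cons ht _ ih => exact .cons ht ih

end fa

variable [∀ d, CompleteSpace (V d)] {Q : ∀ d i, ((T.S d i).M → V d) → Prop}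

variable (T) in
/-- fields of operators that act on the class -/
def Ap (Q : ∀ d i, ((T.S d i).M → V d) → Prop) (n : ℕ) (B : T.Sc fun d => CL (V d) (V d)) : Prop :=
  ∀ w, T.EP Q n w → T.EP Q n fun d i x => B d i x (w d i x)

variable (T) in
/-- admissible semantic letters -/
def SLk (Q : ∀ d i, ((T.S d i).M → V d) → Prop) (n : ℕ) (L : ∀ d i, SL (T.S d i).M (V d)) : Prop :=
  (∃ B, (L = fun d i => .op (B d i)) ∧ T.Ap Q n B ∧
    T.Ap Q n fun d i x => ContinuousLinearMap.adjoint (B d i x)) ∨ L = fun _ _ => .G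

theorem SLk.op (hn : 7 ≤ n) {B : T.Sc fun d => CL (V d) (V d)} (h : T.EC n B) :
    T.SLk (fun d i => (T.F d i).Cb) n fun d i => .op (B d i) :=
  .inl ⟨_, rfl, fun _ => h.app hn le_rfl, fun _ =>
    (h.clm (L := fun d => adjL (V d) (V d)) (.of_le 1 fun _ => norm_adjL)).app hn le_rfl⟩

variable (T) in
/-- pairs of connections, with a class on which the resolvent is a true solution -/
structure Eng (Q : ∀ d i, ((T.S d i).M → V d) → Prop) (n : ℕ)
    (A : ∀ d i, ι → (T.S d i).M → CL (V d) (V d)) : Prop where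
  hn : 8 ≤ n
  el : ∀ a, T.EL n fun d i => A d i a
  cls : ∀ᶠ d in X.l, ∀ i, Mc (T.S d i).I (A d i) ∧ Cls (T.F d i) (A d i) (Q d i)

namespace Eng
variable {A : ∀ d i, ι → (T.S d i).M → CL (V d) (V d)} (h : T.Eng Q n A) {u v l s : T.Sc V}
  {L : ∀ d i, SL (T.S d i).M (V d)} {w : ∀ d i, List (SL (T.S d i).M (V d))}
include h

theorem h7 : 7 ≤ n := h.hn.trans' (by omega)

theorem res' (hk : k + 1 ≤ n) (hq : ∀ᶠ d in X.l, ∀ i, Q d i (s d i)) (hs : T.EL k s)
    (h0 : ∀ i, X.Hk 1 0 fun d x => (T.F d i).res (A d i) (s d i) (T.ψ d i x)) :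
    T.EL (k + 2) fun d i => (T.F d i).res (A d i) (s d i) := by
  have := h.hn
  obtain ⟨n, rfl⟩ : ∃ m, n = m + 1 := ⟨n - 1, by omega⟩
  exact EL.res (by omega) (by omega) h.el
    ((h.cls.and hq).mono fun _ h i => ⟨(h.1 i).1.sk, (h.1 i).2.res _ (h.2 i)⟩) h0 hs

theorem resU (hs : T.U s) : T.U fun d i => (T.F d i).res (A d i) (s d i) :=
  let ⟨K, hK, hs⟩ := hs
  ⟨K, hK, ((hs.and h.cls).and T.tame).mono fun _ h i =>
    Mp86.norm_res_le (Mp86.bumps_of_tame _ (h.2 i)) (h.1.2 i).1 (h.1.1 i)⟩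

theorem resQ (hq : ∀ᶠ d in X.l, ∀ i, Q d i (s d i)) :
    ∀ᶠ d in X.l, ∀ i, Q d i ((T.F d i).res (A d i) (s d i)) :=
  (h.cls.and hq).mono fun _ h i => (h.1 i).2.G _ (h.2 i)

theorem res (hs : T.EP Q n s) : T.EP Q (n + 1) fun d i => (T.F d i).res (A d i) (s d i) := by
  have := h.hn
  obtain ⟨n, rfl⟩ : ∃ m, n = m + 1 := ⟨n - 1, by omega⟩
  exact ⟨h.resQ hs.q, h.resU hs.u, h.res' le_rfl hs.q (hs.el.of_le n.le_succ)
    ((h.resU hs.u).hk (.of_forall fun _ _ => Mp86.sm_res _ _ _))⟩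

theorem sl (hL : T.SLk Q n L) (hu : T.EP Q n u) :
    T.EP Q n fun d i => sl (T.F d i) (A d i) (L d i) (u d i) := by
  rcases hL with ⟨B, rfl, h1, -⟩ | rfl
  · exact h1 _ hu
  · exact (h.res hu).of_le n.le_succ

theorem slT (hL : T.SLk Q n L) (hu : T.EP Q n u) :
    T.EP Q n fun d i => slT (T.F d i) (A d i) (L d i) (u d i) := by
  rcases hL with ⟨B, rfl, -, h1⟩ | rfl
  · exact h1 _ hu
  · exact (h.res hu).of_le n.le_succ

theorem wd (hw : Fa (T.SLk Q n) w) (hs : T.EP Q n s) :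
    T.EP Q n fun d i => Wrd81.wd (Dgr80.sl (T.F d i) (A d i)) (s d i) (w d i) := by
  induction hw with
  | nil => exact hs
  | cons ht _ ih => exact h.sl ht ih

theorem bk (hw : Fa (T.SLk Q n) w) : ∀ {l}, T.EP Q n l →
    T.EP Q n fun d i => bk (T.F d i) (A d i) (w d i) (l d i) := by
  induction hw with
  | nil => exact id
  | cons ht _ ih => exact fun hl => ih (h.slT ht hl)

variable {P : Type} [NormedAddCommGroup P] [InnerProductSpace ℝ P] [CompleteSpace P]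
  {r : ∀ d, CL P (CL (V d) (V d))} (hr : Ub X.l fun d => ‖r d‖)
include hr

theorem cur (hv : T.EL (n + 1) v) (hl : T.EL (n + 1) l) : T.EL (N := fun _ => Fm ι P) n
    fun d i => cur (T.F d i) (A d i) (r d) (v d i) (l d i) :=
  have hr' : Ub X.l fun d => ‖tpL (r d)‖ :=
    let ⟨K, hK, hr⟩ := hr; ⟨K, hK, hr.mono fun _ h => (norm_tpL _).trans h⟩
  EL.toLp fun a => ((hv.of_le n.le_succ).bil h.h7 le_rfl hr' (hl.nab h.h7 le_rfl h.el a)).add
    ((hl.of_le n.le_succ).bil h.h7 le_rfl hr' (hv.nab h.h7 le_rfl h.el a))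

theorem gc (hs : T.EP Q n s) (hw : Fa (T.SLk Q n) w) : ∀ {l}, T.EP Q n l →
    T.EL (N := fun _ => Fm ι P) n
      fun d i => gc (T.F d i) (A d i) (r d) (s d i) (w d i) (l d i) := by
  induction hw with
  | nil => exact fun _ => EL.zero
  | cons ht hw ih =>
    intro l hl
    have h1 := ih (h.slT ht hl)
    rcases ht with ⟨B, rfl, -⟩ | rfl
    · exact h1
    · exact h1.sub (h.cur hr (h.res (h.wd hw hs)).el (h.res hl).el)

end Eng

end Tw

end Crest.Agent.X212.Rsp69
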