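import Crest.Agent.X212.Rsp69.Hd
import Crest.Agent.X212.Rsp69.Tw
import Crest.Agent.X212.Rsp69.Tl

-- ▼ part X212/Rsp69/Bs
section

/-! Row 212, RESP (helper69): the base fields of the cyclic seeds of a pair are close. -/

set_option autoImplicit false
set_option linter.unusedSectionVars false
noncomputable section
open scoped Manifold ContDiff Topology InnerProductSpace
open MeasureTheory Set Function Filter Real

namespace Crest.Agent.X212.Rsp69
open An Sob92 Wz78 Dgr80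
open Cyc79 (KK ct fb cf bs aA amp Pp Pq QI Sep SepN cf_zero cf_one)
open ContinuousLinearMap (adjoint)

theorem norm_iso {K K' : Type} [NormedAddCommGroup K] [InnerProductSpace ℝ K]
    [NormedAddCommGroup K'] [InnerProductSpace ℝ K'] {e : K →L[ℝ] K'}
    (h : ∀ a b, ⟪e a, e b⟫_ℝ = ⟪a, b⟫_ℝ) : ‖e‖ ≤ 1 := e.opNorm_le_bound zero_le_one fun a => by
  rw [one_mul, norm_eq_sqrt_real_inner, h, ← norm_eq_sqrt_real_inner]

variable {E : Type} [NormedAddCommGroup E] [NormedSpace ℝ E] [FiniteDimensional ℝ E]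
  [MeasurableSpace E] [BorelSpace E]
  {HM : Type} [TopologicalSpace HM] {I : ModelWithCorners ℝ E HM} [I.Boundaryless]
  {M : Type} [TopologicalSpace M] [ChartedSpace HM M] [IsManifold I ∞ M]
  [MeasurableSpace M] [T2Space M] [BorelSpace M] [SecondCountableTopology M]
  {ι : Type} [Fintype ι] {𝒟 : Type*} {lam : Type} [Fintype lam]
  {ν : Type} [Fintype ν] [DecidableEq ν]

/-- nested cut-offs between the levels `5 / 2` and `3` -/
def th (j : ℕ) (φ : M → ℝ) : M → ℝ := cf (8 * 2 ^ j) (3 - (2 ^ j)⁻¹ / 2) φ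

section th
variable {j : ℕ} {φ : M → ℝ} {x : M}

theorem th_one (h : 3 - 3 / 8 * (2 ^ j)⁻¹ ≤ φ x) : th j φ x = 1 := cf_one <| by
  have p : (0 : ℝ) < 2 ^ j := by positivity
  nlinarith [mul_inv_cancel₀ p.ne', mul_le_mul_of_nonneg_left h p.le]

theorem th_ts (hφ : Continuous φ) (h : x ∈ tsupport (th j φ)) : 3 - (2 ^ j)⁻¹ / 2 ≤ φ x :=
  closure_minimal (t := {x | 3 - (2 ^ j)⁻¹ / 2 ≤ φ x}) (fun _ h => le_of_not_ge fun e =>
    mem_support.1 h (cf_zero (by positivity) e)) (isClosed_le continuous_const hφ) h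

theorem th_two (hφ : Continuous φ) (h : x ∈ tsupport (th j φ)) : 2 < φ x := by
  have : (2 ^ j : ℝ)⁻¹ ≤ 1 := inv_le_one_of_one_le₀ (one_le_pow₀ one_le_two)
  linarith [th_ts hφ h]

theorem th_ev (hφ : Continuous φ) (h : x ∈ tsupport (th (j + 1) φ)) : th j φ =ᶠ[𝓝 x] fun _ => 1 := by
  have := th_ts hφ h
  rw [pow_succ, mul_inv] at this
  have p : (0 : ℝ) < (2 ^ j)⁻¹ := by positivity
  exact (hφ.continuousAt.eventually_const_lt (u := 3 - 3 / 8 * (2 ^ j)⁻¹) (by linarith)).mono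
    fun y hy => th_one hy.le

theorem contDiff_cf (k s : ℝ) : ContDiff ℝ ∞ fun t : ℝ => smoothTransition (k * (t - s)) :=
  smoothTransition.contDiff.comp (by fun_prop)

end th

theorem lb_res {F : Fr I M ι} {A : ι → M → En ν} {p : M → En ν} (h : Pp F A p) {f' : M → ℝ}
    (hf' : F.Cb f') {K : ℝ} (hK : ∀ x, ‖f' x‖ ≤ K) (u : Sec I (triv M (Eu ν)))
    (hu : ‖F.toH 0 _ u‖ ≤ 1) : LB F.μ (fun y => ‖u.1 y‖ ^ 2) 1 ∧
      F.IsRes A (fun y => f' y • p y (u.1 y)) (F.res A fun y => f' y • p y (u.1 y)) ∧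
      LB F.μ (fun y => ‖F.res A (fun y => f' y • p y (u.1 y)) y‖ ^ 2) (8 * (K ^ 2 * 1)) := by
  have l : LB F.μ (fun y => ‖u.1 y‖ ^ 2) 1 := ⟨(u.2.1.continuous.norm.pow 2).integrable_of_hasCompactSupport
    (u.2.2.1.mono fun y hy e => hy (by simp [e])), by
      rw [← Cyc79.sq_toH]; exact pow_le_one₀ (norm_nonneg _) hu⟩
  obtain ⟨h1, h2⟩ := Cyc79.is_xO h.toOk (Cb_const 1) hf' h.cp u
  have c : Continuous fun y => f' y • p y (u.1 y) :=
    (Cb.sm hf').continuous.smul (h.sm.clm_apply u.2.1).continuous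
  have c' := h1.1.continuous
  refine ⟨l, h1, (wk0 (g := fun _ _ => 0) (exists_cut (Exh.of_tame h.tame.choose_spec)) h.mc wg_one
    h1.1 c (fun _ => contMDiff_const) (fun x => by simp [h1.2.2 x, dvn, nab])
    (by simpa using (memLp_two_iff_integrable_sq_norm h2.memLp.1).1 h2.memLp)
    ((l.mul (sq_nonneg K)).mono (Continuous.aestronglyMeasurable (by fun_prop))
      (fun _ => by positivity) fun x => ?_)).mono (Continuous.aestronglyMeasurable (by fun_prop))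
    (fun _ => sq_nonneg _) fun x => by simpa using g2_nonneg x⟩
  simp only [one_mul, norm_zero, sq, mul_zero, Finset.sum_const_zero, add_zero, norm_smul]
  have := (norm_nonneg _).trans (hK x)
  rw [mul_mul_mul_comm]
  gcongr <;> first | exact hK x | exact h.norm_le _ _

namespace Tw
open Rsp69.Cx
variable {X : Cx I M ι 𝒟} {T : Tw X lam} {n : ℕ}
  {A : ∀ d i, ι → (T.S d i).M → En ν} {p : T.Sc fun _ => En ν} {f f' φ : T.Fn} {φ₀ : 𝒟 → M → ℝ}
  {C : ℕ → ℝ}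

variable (T) in
/-- pairs of connections with a parallel projector -/
structure PA (n : ℕ) (A : ∀ d i, ι → (T.S d i).M → En ν) (p : T.Sc fun _ => En ν) : Prop where
  hn : 8 ≤ n
  pp : ∀ᶠ d in X.l, ∀ i, Pp (T.F d i) (A d i) (p d i) ∧ Pq (T.F d i) (A d i) (p d i)
  A : ∀ a, T.EL n fun d i => A d i a
  p : T.EL n p

variable (T) in
/-- a separating function -/
structure Sp (n : ℕ) (f' φ : T.Fn) (φ₀ : 𝒟 → M → ℝ) (C : ℕ → ℝ) : Prop where
  r : T.EC n f'
  cb : ∀ᶠ d in X.l, (X.F d).CBs (φ₀ d) C ∧ ∀ i, (T.F d i).CBs (φ d i) C ∧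
    ∀ x, f' d i x ≠ 0 → φ d i x ≤ 0
  ev : X.Ev fun d x => ∀ i, φ d i (T.ψ d i x) = φ₀ d x

variable (T) in
/-- separated supports -/
def SepT (n : ℕ) (f f' : T.Fn) : Prop := T.EC n f ∧ ∃ φ φ₀ C, T.Sp n f' φ φ₀ C ∧
  ∀ᶠ d in X.l, ∀ i x, f d i x ≠ 0 → 3 ≤ φ d i x

namespace Sp
variable (s : T.Sp n f' φ φ₀ C)
include s

theorem bk (j k : ℕ) : Bk (N := fun _ => ℝ) (pre X.F) X.l (un 𝒟 M) 1 k fun d => th j (φ₀ d) :=
  have e := Bk.comp k (contDiff_cf (8 * 2 ^ j) (3 - (2 ^ j)⁻¹ / 2)) (S := un 𝒟 M)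
    (.of_CBs (s.cb.mono fun _ h => h.1)); e

theorem one (j : ℕ) : ∀ᶠ d in X.l, ∀ x ∈ tsupport (th (j + 1) (φ₀ d)),
    th j (φ₀ d) =ᶠ[𝓝 x] fun _ => 1 := s.cb.mono fun _ h _ => th_ev h.1.1.continuous

theorem sep : ∀ᶠ d in X.l, ∀ i, Sep (T.F d i).toPre (cf 1 1 (φ d i)) (f' d i) :=
  (s.cb.and s.r.q).mono fun d h i => ⟨Cb_nem (contDiff_cf _ _) ⟨_, (h.1.2 i).1⟩, h.2 i, φ d i,
    ⟨_, (h.1.2 i).1⟩, fun _ e => le_of_not_ge fun k => e (cf_zero zero_le_one k), (h.1.2 i).2⟩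

theorem two (j : ℕ) : X.Ev fun d x => x ∈ tsupport (th j (φ₀ d)) → ∀ i, f' d i (T.ψ d i x) = 0 ∧
    ∀ᶠ y in 𝓝 (T.ψ d i x), cf 1 1 (φ d i) y = 1 :=
  (s.ev.and (.of_ev (P := fun _ _ => _) (s.cb.mono fun _ h _ => h))).mono fun d x h hx i =>
    have e : 2 < φ d i (T.ψ d i x) := h.1 i ▸ th_two h.2.1.1.continuous hx
    ⟨by_contra fun k => by linarith [(h.2.2 i).2 _ k],
      ((h.2.2 i).1.1.continuous.continuousAt.eventually_const_lt e).mono fun y hy =>
        cf_one (by linarith)⟩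

theorem cm {𝒟' : Type*} (σ : 𝒟' → 𝒟) : (T.cm σ).Sp n (fun e => f' (σ e)) (fun e => φ (σ e))
    (fun e => φ₀ (σ e)) C :=
  have t := tendsto_comap (f := σ) (x := X.l)
  ⟨⟨t.eventually s.r.q, s.r.u.imp fun _ h => ⟨h.1, t.eventually h.2⟩, s.r.el.cm σ⟩,
    t.eventually s.cb, s.ev.cm σ⟩

end Sp

namespace PA
variable (h : T.PA n A p) (H : T.HD ν)
include h

theorem eng : T.Eng (V := fun d => Fm ν (H.H d)) (fun d i => QI (T.F d i) (p d i)) n
    fun d i => aA (H.H d) (A d i) :=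
  ⟨h.hn, fun a => (h.A a).clm (L := fun d => amp (H.H d)) (.of_le 1 fun _ =>
    ContinuousLinearMap.opNorm_le_bound _ zero_le_one fun S => by
      rw [one_mul]
      exact ContinuousLinearMap.opNorm_le_bound _ (norm_nonneg _) (Cyc79.norm_amp S)),
    h.pp.mono fun _ h i => ⟨(h i).2.mcA _, (h i).1.cls⟩⟩

theorem bsU {g : T.Fn} (s : T.Sp n f' φ φ₀ C) (hg : T.U g) (hs : ∀ᶠ d in X.l, ∀ i,
    Continuous (g d i) ∧ ∀ x, g d i x ≠ 0 → 1 ≤ φ d i x) : T.U (N := fun d => Fm ν (H.H d))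
    fun d i y => fb (H.j d i) (bs (T.F d i) (A d i) (p d i) (g d i) (f' d i) y) := by
  obtain ⟨K, hK, h1⟩ := s.r.u
  obtain ⟨K', hK', h2⟩ := hg
  have p : 0 ≤ Fintype.card ι * (C 2 ^ 2 + (1 + |X.C 0|) * |C 2|) := by positivity
  refine ⟨|Cyc79.kB (|X.C 0| + 1) (1 + K + K' +
    Fintype.card ι * (C 2 ^ 2 + (1 + |X.C 0|) * |C 2|))|, abs_nonneg _, ?_⟩
  filter_upwards [h1, h2, hs, h.pp, s.cb, s.r.q, T.tame, H.iso] with d h1 h2 hs hp hc hq ht hi i y
  refine (Cyc79.norm_fb_le _ _).trans ((mul_le_of_le_one_left (norm_nonneg _)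
    (norm_iso (hi i))).trans (le_trans ?_ (le_abs_self _)))
  exact (hp i).2.bs_kB ((Mp86.l4_of_tame (ht i)).mono (by linarith [le_abs_self (X.C 0)]))
    (by positivity) ⟨by linarith, (hs i).1, (Cb.sm (hq i)).continuous,
      fun x => (h2 i x).trans (by linarith), fun x => (h1 i x).trans (by linarith), _,
      (Cyc79.cu_of_cbs (ht i) (hc.2 i).1).mono (by linarith), (hs i).2, (hc.2 i).2⟩ y

theorem cm {𝒟' : Type*} (σ : 𝒟' → 𝒟) : (T.cm σ).PA n (fun e => A (σ e)) fun e => p (σ e) :=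
  ⟨h.hn, (tendsto_comap (f := σ)).eventually h.pp, fun a => (h.A a).cm σ, h.p.cm σ⟩

theorem st1 (s : T.Sp n f' φ φ₀ C) {u : ∀ d i, Sec (T.S d i).I (triv (T.S d i).M (Eu ν))}
    (hu : ∀ᶠ d in X.l, ∀ i, ‖(T.F d i).toH 0 _ (u d i)‖ ≤ 1)
    (e : X.Ev fun d x => (u d true).1 (T.ψ d true x) = (u d false).1 (T.ψ d false x)) :
    X.Pr (N := fun _ => Eu ν) T.ρ 4 fun d i x => th 10 (φ₀ d) x • (T.F d i).res (A d i)
      (fun y => f' d i y • p d i y ((u d i).1 y)) (T.ψ d i x) := by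
  have hn := h.hn
  obtain ⟨n, rfl⟩ : ∃ m, n = m + 1 := ⟨n - 1, by omega⟩
  obtain ⟨K, hK, h1⟩ := s.r.u
  have k := (((h.pp.and s.r.q).and h1).and hu).mono fun d h i =>
    lb_res (h.1.1.1 i).1 (h.1.1.2 i) (h.1.2 i) (u d i) (h.2 i)
  have sk := h.pp.mono fun e h i => (h i).1.sk
  have e1 : T.EL (N := fun _ => Eu ν) 0 fun d i => (u d i).1 :=
    Pr.of_eq T.lw (fun i => hk0 (g := fun d i => (u d i).1)
      (k.mono fun d h => ⟨(u d i).2.1, (h i).1⟩)) e
  have e2 := EL.res (V := fun _ => Eu ν) (by omega) n.zero_le h.A ((sk.and k).mono fun e h i =>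
    ⟨h.1 i, (h.2 i).2.1⟩) (fun i => hk0 (N := fun _ => Eu ν) (g := fun d i => (T.F d i).res (A d i)
      fun y => f' d i y • p d i y ((u d i).1 y)) (k.mono fun e h => ⟨(h i).2.1.1, (h i).2.2⟩))
    (s.r.el.smul (by omega) (Nat.zero_le _) (h.p.app (by omega) (Nat.zero_le _) e1))
  exact lrT (V := fun _ => Eu ν) (k := 2) (by omega) (by omega) h.A sk s.bk s.one
    (((s.two 1).and (.of_ev (P := fun _ _ => _) (k.mono fun _ h _ => h))).mono
      fun e x h hx i => ((h.2 i).2.1.2.2 _).trans (by simp only [(h.1 hx i).1, zero_smul]))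
    ((Pr.same T.lw (Hk.of_Bk (s.bk 0 7))).smul le_rfl (Nat.zero_le _) (e2.of_le (Nat.zero_le _)))

/-- **stage 1**: testing against a dense set -/
theorem bs0 (s : T.Sp n f' φ φ₀ C) : X.Pr (N := fun d => Fm ν (H.H d)) T.ρ 0
    fun d i x => th 10 (φ₀ d) x • fb (H.j d i)
      (bs (T.F d i) (A d i) (p d i) (cf 1 1 (φ d i)) (f' d i) (T.ψ d i x)) := by
  have sm : ∀ᶠ d in X.l, ∀ i, Sm (T.S d i).I fun y => fb (H.j d i)
      (bs (T.F d i) (A d i) (p d i) (cf 1 1 (φ d i)) (f' d i) y) :=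
    .of_forall fun d i => (fb (H.j d i)).contMDiff.comp (Cyc79.sm_fld _ _)
  have hb := fun i => (Hk.of_Bk (s.bk 10 7)).smulR le_rfl (Nat.zero_le _)
    ((h.bsU H s ⟨1, zero_le_one, .of_forall fun _ _ _ => Cyc79.cf_abs _ _ _⟩ (s.sep.and s.cb |>.mono
      fun d h i => ⟨(Cb.sm (h.1 i).1).continuous, fun _ e => le_of_not_ge fun k =>
        e (cf_zero zero_le_one k)⟩)).hk sm i)
  refine ⟨hb, ?_⟩
  obtain ⟨L, hL, hd⟩ := H.dn
  let σ : {e : Σ d, H.H d × ∀ i, Sec (T.S d i).I (triv (T.S d i).M (Eu ν)) // ‖e.2.1‖ ≤ 1 ∧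
      (∀ i, adjoint (H.j e.1 i) e.2.1 = (T.F e.1 i).toH 0 _ (e.2.2 i)) ∧ ∀ x ∈ X.bd L e.1,
        (e.2.2 true).1 (T.ψ e.1 true x) = (e.2.2 false).1 (T.ψ e.1 false x)} → 𝒟 := fun e => e.1.1
  have e3 := (h.cm σ).st1 (s.cm σ) (u := fun e => e.1.2.2)
    (((tendsto_comap (f := σ)).eventually H.iso).mono fun e h i => (congrArg _ (e.2.2.1 i)).ge.trans
      ((ContinuousLinearMap.le_opNorm _ _).trans (mul_le_one₀
        ((LinearIsometryEquiv.norm_map _ _).trans_le (norm_iso (h i))) (norm_nonneg _) e.2.1)))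
    ⟨L, hL, .of_forall fun e => e.2.2.2⟩
  obtain ⟨L₁, hL₁, K₁, hK₁, e4⟩ := Hk.bd (k := 0) e3.d
  obtain ⟨L₂, hL₂, e5⟩ := ((s.two 10).and ((hb true).sub (hb false)).sa)
  refine Bd.hk T.lw ⟨L₁ + L₂, by positivity, √(Fintype.card ν) * K₁, by positivity, ?_⟩
  filter_upwards [eventually_comap.1 e4, e5, hd, T.lw.2, h.pp, s.sep] with d e4 e5 hd lw hp sp x hx
  have e5 := e5 x (Nd18.Dp_mono (by linarith) hx)
  refine ⟨(lw 0 _).1.le, e5.2, .zero' ((norm_of_dense hd fun k ⟨u, u1, u2⟩ hk => ?_).trans_eq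
    (mul_assoc ..).symm)⟩
  have c : ∀ i (v : Fm ν _), ct k (fb (H.j d i) v) = ct ((T.F d i).toH 0 _ (u i)) v := fun i v => by
    rw [← u1, ← Cyc79.ct_fb, ContinuousLinearMap.adjoint_adjoint]
  refine le_of_eq_of_le (congrArg _ ?_)
    (e4 ⟨⟨d, k, u⟩, hk, u1, u2⟩ rfl x (Nd18.Dp_mono (by linarith) hx)).2.2.bd
  simp only [map_sub, map_smul, c, fun i => Cyc79.ct_bs (hp i).1.toOk (sp i) (hp i).1.cp]
  by_cases e : th 10 (φ₀ d) x = 0
  · simp [σ, e]
  · simp only [fun i => (e5.1 (subset_tsupport _ e) i).2.self_of_nhds, one_smul]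
    rfl

/-- **stage 2**: the transported base fields -/
theorem bsE (s : T.SepT n f f') : (∀ᶠ d in X.l, ∀ i, Sep (T.F d i).toPre (f d i) (f' d i)) ∧
    T.EP (N := fun d => Fm ν (H.H d)) (fun d i => QI (T.F d i) (p d i)) n
      fun d i y => fb (H.j d i) (bs (T.F d i) (A d i) (p d i) (f d i) (f' d i) y) := by
  obtain ⟨hf, φ, φ₀, C, s, h3⟩ := s
  have hn := h.hn
  obtain ⟨n, rfl⟩ : ∃ m, n = m + 2 := ⟨n - 2, by omega⟩
  have sp : ∀ᶠ d in X.l, ∀ i, Sep (T.F d i).toPre (f d i) (f' d i) :=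
    (((s.cb.and s.r.q).and hf.q).and h3).mono fun d h i => ⟨h.1.2 i, h.1.1.2 i, φ d i,
      ⟨_, (h.1.1.1.2 i).1⟩, fun x e => by linarith [h.2 i x e], (h.1.1.1.2 i).2⟩
  refine ⟨sp, (sp.and h.pp).mono fun d h i => ((h.2 i).1.qi_bs (h.1 i)).fb _, h.bsU H s hf.u
    ((hf.q.and h3).mono fun d h i => ⟨(Cb.sm (h.1 i)).continuous, fun x e => by
      linarith [h.2 i x e]⟩), ?_⟩
  have e := lrT (k := n) (n := n + 1) (by omega) (by omega) (h.eng H).el
    ((h.eng H).cls.mono fun _ h i => (h i).1.sk) (θ := fun j d => th (j + 10) (φ₀ d))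
    (R := fun d i y => fb (H.j d i) (bs (T.F d i) (A d i) (p d i) (cf 1 1 (φ d i)) (f' d i) y))
    (fun j => s.bk _) (fun j => by simpa only [add_right_comm j 1] using s.one (j + 10))
    (((s.two (1 + 10)).and (.of_ev (P := fun _ _ => _) ((h.pp.and s.sep).mono fun _ h _ => h))).mono
      fun d x h hx i => ?_) (h.bs0 H s)
  · refine (Pr.smul (by omega) le_rfl hf.el e).congr ((s.ev.and (.of_ev (P := fun _ _ => _)
      ((((h.pp.and s.sep).and sp).and h3).mono fun _ h _ => h))).mono fun d x h i => ?_)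
    beta_reduce
    rw [Cyc79.bs_mul (h.2.1.1.1 i).1.toOk (h.2.1.1.2 i) (h.2.1.1.1 i).1.cp (h.2.1.2 i)
      (g := f d i) fun z => ?_, map_smul]
    · by_cases e : f d i (T.ψ d i x) = 0
      · simp [e]
      · rw [th_one (le_trans (sub_le_self _ (by positivity)) (h.1 i ▸ h.2.2 i _ e)), one_smul]
    · by_cases e : f d i z = 0
      · simp [e]
      · rw [cf_one (by linarith [h.2.2 i z e]), mul_one]
  · rw [Eqv71.itw_lap (frm _) (.of_forall (Cyc79.itw_fb _)) contMDiffAt_const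
      (fun a => Cyc79.sm_aA (h.2.1 i).1.mc.sm a _) (Cyc79.fi_bs (h.2.1 i).1.toOk (h.2.2 i) (h.2.1 i).1.cp
        |>.sm _), ← map_add,
      Cyc79.bs_hom (h.2.1 i).1.toOk (h.2.1 i).1.cp (h.2.2 i) (h.1 hx i).2, map_zero]

end PA
end Tw

end Crest.Agent.X212.Rsp69
end
end

-- ▼ part X212/Rsp69/Cfg
section

/-! Row 212, RESP (helper69): pairs of configurations, their densities and seeds. -/

set_option autoImplicit false
set_option linter.unusedSectionVars false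
noncomputable section
open scoped Manifold ContDiff Topology InnerProductSpace
open MeasureTheory Set Function Filter Real

namespace Crest.Agent.X212.Rsp69
open An Sob92 Wz78 Dgr80
open Mp86 (Mc nf)
open Wrd81 (wd)

variable {E : Type} [NormedAddCommGroup E] [NormedSpace ℝ E] [FiniteDimensional ℝ E]
  [MeasurableSpace E] [BorelSpace E]
  {HM : Type} [TopologicalSpace HM] {I : ModelWithCorners ℝ E HM} [I.Boundaryless]
  {M : Type} [TopologicalSpace M] [ChartedSpace HM M] [IsManifold I ∞ M]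
  [MeasurableSpace M] [T2Space M] [BorelSpace M] [SecondCountableTopology M]
  {ι : Type} [Fintype ι] {𝒟 : Type*} {lam : Type} [Fintype lam]

theorem cls_cb {V : Type} [NormedAddCommGroup V] [InnerProductSpace ℝ V] [FiniteDimensional ℝ V]
    {F : Fr I M ι} {A : ι → M → CL V V} (h : Cyc79.Ok F A) : Mc I A ∧ Cls F A F.Cb :=
  have k := fun u (hu : F.Cb u) => Mon62.re_tame h.tame.choose_spec h.cb h.sk hu
  ⟨h.mc, fun _ => Cb.sm, fun u hu => (k u hu).1, fun u hu => (k u hu).2⟩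

/-- `u ⊗ v*` as a bilinear map -/
def rkL (κ : Type) [Fintype κ] [DecidableEq κ] : CL (Eu κ) (CL (Eu κ) (HS κ)) :=
  (ContinuousLinearMap.compL ℝ (Eu κ) (En κ) (HS κ) hsL) ∘L
    (((ContinuousLinearMap.smulRightL ℝ (Eu κ) (Eu κ)) ∘L innerSL ℝ).flip)

namespace Tw
open Cx
variable {X : Cx I M ι 𝒟} (T : Tw X lam)

/-- pairs of configurations in the same fibre -/
structure CF (N : ℕ) where
  r : 𝒟 → Bool → ℕ
  J : 𝒟 → En (Fin N)
  p : T.Sc fun _ => En (Fin N)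
  ρ : ∀ d i, ι → (T.S d i).M → En (Fin N)
  j : T.Sc fun _ => CL (Eu lam) (En (Fin N))
  W : ∀ d i, ι → (T.S d i).M → En (Fin N)
  Φ : T.Sc fun _ => Eu (Fin N)
  z : ∀ d i, EuclideanSpace ℂ (Fin (r d i))

/-- functions whose differential lies in the class -/
def Cd (n : ℕ) (g : T.Fn) : Prop := ∀ a, T.EC n fun d i => (T.F d i).D a (g d i)

/-- admissible letters of spinor words -/
inductive LtY (n : ℕ) : (∀ d i, Lt (T.S d i).M) → Prop
  | mul {f} : T.EC n f → LtY n fun d i => .mul (f d i)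
  | cl {g} : T.Cd n g → LtY n fun d i => .cl (g d i)
  | im : LtY n fun _ _ => .im
  | G : LtY n fun _ _ => .G

/-- admissible letters of adjoint words -/
inductive LaY (n : ℕ) : (∀ d i, La (T.S d i).M) → Prop
  | mul {f} : T.EC n f → LaY n fun d i => .mul (f d i)
  | G : LaY n fun _ _ => .G

variable {T} {N n k : ℕ}

theorem EC.mul (hn : 7 ≤ n) {f g : T.Fn} (h : T.EC n f) (h' : T.EC n g) :
    T.EC (N := fun _ => ℝ) n fun d i x => f d i x * g d i x := h.smul hn le_rfl h'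

theorem EC.c (a b l : ι) : T.EC (N := fun _ => ℝ) k fun d i => (T.F d i).c a b l :=
  .fixed (T.tame.mono fun _ h i => (h i).c a b l) (T.rel.mono fun _ _ h =>
    ((h.2 _).1.c (h.2 _).2.1 a b l).symm.trans ((h.2 _).1.c (h.2 _).2.1 a b l))

theorem EC.nrm {P : Type} [NormedAddCommGroup P] [InnerProductSpace ℝ P] [FiniteDimensional ℝ P]
    (hn : 8 ≤ n) {u : T.Sc fun _ => P} (h : T.EC n u) :
    T.EC (N := fun _ => P) n fun d i x => nrm (u d i x) := h.comp contDiff_nv hn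

theorem EL.nrm {P : Type} [NormedAddCommGroup P] [InnerProductSpace ℝ P] [FiniteDimensional ℝ P]
    (hn : 8 ≤ n) {u : T.Sc fun _ => P} (h : T.EL n u) :
    T.EL (N := fun _ => P) n fun d i x => nrm (u d i x) := h.comp contDiff_nv hn

theorem slk_mul {V : 𝒟 → Type} [∀ d, NormedAddCommGroup (V d)] [∀ d, InnerProductSpace ℝ (V d)]
    [∀ d, CompleteSpace (V d)] (hn : 7 ≤ n) {f : T.Fn} (h : T.EC n f) :
    T.SLk (fun d i => (T.F d i).Cb) n fun d i => .op fun x => f d i x • (1 : CL (V d) (V d)) :=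
  .op hn (h.smul hn le_rfl (.const (.of_le 1 fun _ => ContinuousLinearMap.norm_id_le)))

namespace CF
variable (κ : T.CF N)

/-- spinors -/
abbrev SV (_ : T.CF N) : 𝒟 → Type := fun _ => Eu (Fin N)
/-- adjoint sections -/
abbrev SA (_ : T.CF N) : 𝒟 → Type := fun _ => HS (Fin N)
/-- adjoint one-forms -/
abbrev S1 (_ : T.CF N) : 𝒟 → Type := fun _ => Fm ι (HS (Fin N))
/-- adjoint two-forms -/
abbrev S2 (_ : T.CF N) : 𝒟 → Type := fun _ => Fm (ι × ι) (HS (Fin N))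

abbrev m (d : 𝒟) (i : Bool) : Md (T.S d i).M ι lam := ⟨N, κ.J d, κ.p d i, κ.ρ d i, κ.j d i⟩

abbrev c (d : 𝒟) (i : Bool) : Cfg (T.S d i).M ι lam (κ.r d i) := ⟨κ.m d i, κ.W d i, κ.Φ d i, κ.z d i⟩

abbrev A (d : 𝒟) (i : Bool) : ι → (T.S d i).M → En (Fin N × Fin N) := (κ.m d i).adW (κ.W d i)

/-- contractions of the curvature -/
abbrev fg (φ : ι × ι → T.Fn) : T.Sc κ.SA := fun d i x =>
  ∑ s : ι × ι, φ s d i x • (κ.m d i).Fg (T.F d i) (κ.W d i) x s

/-- densities with gradients -/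
structure DenS (n : ℕ) (D : ∀ d i, Den (T.S d i).M ι lam (κ.r d i)) : Prop where
  h : T.EC (N := fun _ => ℝ) n fun d i => (D d i).h (κ.c d i)
  gA : ∀ f, T.EC n f → T.EL (N := κ.S1) n fun d i => (D d i).gA (κ.c d i) (f d i)
  gP : ∀ f, T.EC n f → T.EL (N := κ.SV) n fun d i => (D d i).gP (κ.c d i) (f d i)

/-- seeds with gradients -/
structure SedS (n : ℕ) (S : ∀ d i, Sed (T.S d i).M ι lam (κ.r d i)) : Prop where
  s : T.EC (N := κ.SA) n fun d i => (S d i).s (κ.c d i)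
  sA : ∀ l : T.Sc κ.SA, T.EC n l → T.EL (N := κ.S1) n fun d i => (S d i).sA (κ.c d i) (l d i)
  sP : ∀ l : T.Sc κ.SA, T.EC n l → T.EL (N := κ.SV) n fun d i => (S d i).sP (κ.c d i) (l d i)

/-- the hypotheses on a pair; the curvature is controlled over the sets `Z` -/
structure OK (Z : ∀ d i, Set (T.S d i).M) (n : ℕ) : Prop where
  hn : 8 ≤ n
  gd : ∀ᶠ d in X.l, ∀ i, Gd (T.S d i).B (T.S d i).G (κ.c d i)
  J : Ub X.l fun d => ‖κ.J d‖
  W : ∀ a, T.EL n fun d i => κ.W d i a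
  Φ : T.EC n κ.Φ
  ρ : ∀ a, T.EC n fun d i => κ.ρ d i a
  j : T.EC n κ.j
  pg : T.EC (N := fun _ => En (Fin N × Fin N)) n fun d i => (κ.m d i).pg
  cv : ∀ φ : ι × ι → T.Fn, (∀ s, T.EC n (φ s)) → (∀ s d i, ∀ x ∉ Z d i, φ s d i x = 0) →
    (∀ i, X.Hk 1 0 fun d x => (T.F d i).res (κ.A d i) (κ.fg φ d i) (T.ψ d i x)) ∧
      T.U (N := κ.SA) fun d i => (T.F d i).res (κ.A d i) ((T.F d i).res (κ.A d i) (κ.fg φ d i))

variable {κ}

theorem DenS.sed (hn : 7 ≤ n) {S S' : ∀ d i, Sed (T.S d i).M ι lam (κ.r d i)} (h : κ.SedS n S)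
    (h' : κ.SedS n S') : κ.DenS n fun d i => Den.sed (S d i) (S' d i) :=
  ⟨h.s.inner hn h'.s, fun _ hf => (h.sA _ (hf.smul hn le_rfl h'.s)).add
    (h'.sA _ (hf.smul hn le_rfl h.s)), fun _ hf => (h.sP _ (hf.smul hn le_rfl h'.s)).add
    (h'.sP _ (hf.smul hn le_rfl h.s))⟩

namespace OK
variable {Z : ∀ d i, Set (T.S d i).M} (h : κ.OK Z n) {u v : ∀ d i, SW (T.S d i).M}
  {w : ∀ d i, List (La (T.S d i).M)} {f g g' : T.Fn}
include h

theorem h7 : 7 ≤ n := h.hn.trans' (by omega)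

theorem engV : T.Eng (V := κ.SV) (fun d i => (T.F d i).Cb) n κ.W :=
  ⟨h.hn, h.W, h.gd.mono fun _ h i => cls_cb (h i).ppS.toOk⟩

theorem elA (a : ι) : T.EL (N := fun _ => En (Fin N × Fin N)) n fun d i => κ.A d i a :=
  (h.W a).clm (L := fun _ => adcL) (.const _)

theorem engA : T.Eng (V := κ.SA) (fun d i => (T.F d i).Cb) n κ.A :=
  ⟨h.hn, h.elA, h.gd.mono fun _ h i => cls_cb (h i).pp.toOk⟩

theorem ltS (hu : Fa (T.LtY n) u) : Fa (T.SLk (V := κ.SV) (fun d i => (T.F d i).Cb) n)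
    fun d i => (u d i).map (ltS (T.F d i) (κ.c d i)) := hu.map fun t ht => by
  cases ht with
  | mul hf => exact slk_mul h.h7 hf
  | cl hg => exact .op h.h7 (.sum _ fun a _ => (hg a).smul h.h7 le_rfl (h.ρ a))
  | im => exact .op h.h7 (.const h.J)
  | G => exact .inr rfl

theorem laS (hw : Fa (T.LaY n) w) : Fa (T.SLk (V := κ.SA) (fun d i => (T.F d i).Cb) n)
    fun d i => (w d i).map (laS (κ.c d i)) := hw.map fun t ht => by
  cases ht with
  | mul hf => exact slk_mul h.h7 hf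
  | G => exact .inr rfl

theorem wdV (hu : Fa (T.LtY n) u) {s : T.Sc κ.SV} (hs : T.EC n s) :
    T.EC (N := κ.SV) n fun d i => wd ((κ.c d i).lt (T.F d i)) (s d i) (u d i) :=
  (h.engV.wd (h.ltS hu) hs).congr' fun d i => congrFun (lt_eq (T.F d i) (κ.c d i) _ _).symm

theorem wdA (hw : Fa (T.LaY n) w) {s : T.Sc κ.SA} (hs : T.EC n s) :
    T.EC (N := κ.SA) n fun d i => wd ((κ.c d i).la (T.F d i)) (s d i) (w d i) :=
  (h.engA.wd (h.laS hw) hs).congr' fun d i => congrFun (la_eq (T.F d i) (κ.c d i) _ _).symm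

theorem sw (hu : Fa (T.LtY n) u) : T.EC (N := κ.SV) n fun d i => (κ.c d i).sw (T.F d i) (u d i) :=
  h.wdV hu h.Φ

theorem nP : T.EC (N := κ.SV) n fun d i => nP (κ.c d i) := h.Φ.nrm h.hn

theorem nw (hu : Fa (T.LtY n) u) : T.EC (N := κ.SV) n fun d i => nw (T.F d i) (κ.c d i) (u d i) :=
  h.wdV hu h.nP

theorem dn {l : T.Sc κ.SV} (hl : T.EC n l) : T.EL (N := κ.SV) n fun d i => dn (κ.c d i) (l d i) :=
  ((h.Φ.el.comp (contDiff_nv.fderiv_right (m := ∞) le_rfl) h.hn).app h.h7 le_rfl hl.el).congr'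
    fun d i x => (dn_eq (c := κ.c d i) (l d i) x).symm

theorem pk_one : T.EC (N := fun _ => En (Fin N)) n fun d i => pk (κ.c d i) .one :=
  .const (c := fun _ => 1) (.const _)

theorem pk_re {s : T.Sc fun _ => Eu lam} (hs : T.EC n s) :
    T.EC (N := fun _ => En (Fin N)) n fun d i => pk (κ.c d i) (.re (s d i)) :=
  h.j.app h.h7 le_rfl hs

theorem pk_im {s : T.Sc fun _ => Eu lam} (hs : T.EC n s) :
    T.EC (N := fun _ => En (Fin N)) n fun d i => pk (κ.c d i) (.im (s d i)) :=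
  (EC.const h.J).bil h.h7 le_rfl (B := fun _ => ContinuousLinearMap.mul ℝ _) (.const _) (h.pk_re hs)

theorem denSw {P : ∀ d i, Pk (T.S d i).M lam}
    (hP : T.EC (N := fun _ => En (Fin N)) n fun d i => pk (κ.c d i) (P d i))
    (hu : Fa (T.LtY n) u) (hv : Fa (T.LtY n) v) :
    κ.DenS n fun d i => Den.sw (T.F d i) (P d i) (u d i) (v d i) :=
  have m : ∀ {f} {u : ∀ d i, SW (T.S d i).M}, T.EC n f → Fa (T.LtY n) u →
      T.EC (N := κ.SV) n fun d i x =>
        f d i x • pk (κ.c d i) (P d i) x (Dgr80.nw (T.F d i) (κ.c d i) (u d i) x) := fun hf hu =>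
    hf.smul h.h7 le_rfl (hP.app h.h7 le_rfl (h.nw hu))
  ⟨(hP.app h.h7 le_rfl (h.nw hu)).inner h.h7 (h.nw hv),
    fun _ hf => (h.engV.gc (r := fun _ => opL) (.of_le ‖opL (κ := Fin N)‖ fun _ => le_rfl) h.nP
      (h.ltS hu) (m hf hv)).add (h.engV.gc (r := fun _ => opL)
        (.of_le ‖opL (κ := Fin N)‖ fun _ => le_rfl) h.nP (h.ltS hv) (m hf hu)),
    fun _ hf => (h.dn (h.engV.bk (h.ltS hu) (m hf hv))).add
      (h.dn (h.engV.bk (h.ltS hv) (m hf hu)))⟩

theorem sedWd {S : ∀ d i, Sed (T.S d i).M ι lam (κ.r d i)} (hS : κ.SedS n S)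
    (hw : Fa (T.LaY n) w) : κ.SedS n fun d i => (S d i).wd (T.F d i) (w d i) :=
  ⟨h.wdA hw hS.s, fun _ hl => (h.engA.gc (r := fun _ => adR _) (.of_le ‖adR (Fin N)‖ fun _ => le_rfl)
    hS.s (h.laS hw) hl).add
    (hS.sA _ (h.engA.bk (h.laS hw) hl)), fun _ hl => hS.sP _ (h.engA.bk (h.laS hw) hl)⟩

theorem Fg (hk : k + 1 ≤ n) (s : ι × ι) :
    T.EL (N := κ.SA) k fun d i x => (κ.m d i).Fg (T.F d i) (κ.W d i) x s :=
  have W := fun a => (h.W a).of_le (Nat.le_of_succ_le hk)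
  have m := fun a b => (h.W a).bil h.h7 (Nat.le_of_succ_le hk)
    (B := fun _ => ContinuousLinearMap.mul ℝ _) (.const _) (W b)
  h.pg.el.app h.h7 (by omega) (EL.clm (L := fun _ => hsL) (.const _)
    ((((((h.W _).of_le hk).D _).sub (((h.W _).of_le hk).D _)).add ((m s.1 s.2).sub (m s.2 s.1))).sub
      (.sum _ fun l _ => (EC.c _ _ l).el.smul h.h7 (by omega) (W l))))

theorem cvS {φ : ι × ι → T.Fn} (hφ : ∀ s, T.EC n (φ s)) (h0 : ∀ s d i, ∀ x ∉ Z d i, φ s d i x = 0) :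
    T.EC (N := κ.SA) n fun d i =>
      (T.F d i).res (κ.A d i) ((T.F d i).res (κ.A d i) (κ.fg φ d i)) := by
  have := h.hn
  obtain ⟨n, rfl⟩ : ∃ m, n = m + 2 := ⟨n - 2, by omega⟩
  obtain ⟨h1, h2⟩ := h.cv φ hφ h0
  have q : ∀ᶠ d in X.l, ∀ i, (T.F d i).Cb (κ.fg φ d i) :=
    ((h.gd.and (eventually_all.2 fun s => (hφ s).q)).and T.tame).mono fun d h i =>
      Cb_sum _ fun s _ => Cb_smul (h.1.2 s i) (Cb_app (h.1.1 i).pg (Cb_clm hsL (Cb.sub (Cb.add
        (Cb.sub (Cb_D ((h.1.1 i).W _) _) (Cb_D ((h.1.1 i).W _) _))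
        (Cb.sub (Cb_comp ((h.1.1 i).W _) ((h.1.1 i).W _)) (Cb_comp ((h.1.1 i).W _) ((h.1.1 i).W _))))
        (Cb_sum _ fun l _ => Cb_smul ⟨_, (h.2 i).c _ _ l⟩ ((h.1.1 i).W l)))))
  have e1 := h.engA.res' (k := n) (by omega) q (.sum _ fun s _ =>
    (hφ s).el.smul h.h7 (by omega) (h.Fg (by omega) s)) h1
  exact ⟨h.engA.resQ (h.engA.resQ q), h2, h.engA.res' (k := n) (by omega) (h.engA.resQ q)
    (e1.of_le (by omega)) (h2.hk (.of_forall fun _ _ => Mp86.sm_res _ _ _))⟩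

theorem cvY (hf : T.EC n f) (h0 : ∀ d i, ∀ x ∉ Z d i, f d i x = 0) (hg : T.Cd n g)
    (hg' : T.Cd n g') :
    T.EC (N := κ.SA) n fun d i => (κ.c d i).sd (T.F d i) (.cv (f d i) (g d i) (g' d i)) :=
  h.cvS (fun s => (hf.mul h.h7 (hg s.1)).mul h.h7 (hg' s.2)) fun s d i x hx => by simp [h0 d i x hx]

theorem qY (hu : Fa (T.LtY n) u) (hv : Fa (T.LtY n) v) :
    T.EC (N := κ.SA) n fun d i => (κ.c d i).sd (T.F d i) (.q (u d i) (v d i)) :=
  h.pg.app h.h7 le_rfl ((h.sw hu).bil h.h7 le_rfl (B := fun _ => rkL (Fin N)) (.const _) (h.sw hv))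

/-- the two-form `dg ∧ dg' ⊗ ξ` -/
theorem wedge (hg : T.Cd n g) (hg' : T.Cd n g') {ξ : T.Sc κ.SA} (hξ : T.EL n ξ) :
    T.EL (N := κ.S2) n fun d i x => WithLp.toLp 2 fun s : ι × ι =>
      ((T.F d i).D s.1 (g d i) x * (T.F d i).D s.2 (g' d i) x) • ξ d i x :=
  EL.toLp fun s => ((hg s.1).mul h.h7 (hg' s.2)).el.smul h.h7 le_rfl hξ

/-- the covariant derivative of the spinor along the gradient of `g` (one level lower) -/
theorem ntΦ (hk : k + 1 ≤ n) (hg : T.Cd n g) :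
    T.EL (N := κ.SV) k fun d i => nt (T.F d i) (κ.W d i) (g d i) (κ.Φ d i) :=
  .sum _ fun a _ => (hg a).el.smul h.h7 (by omega)
    ((h.Φ.el.of_le hk).nab h.h7 (by omega) h.W a)

end OK
end CF
end Tw

end Crest.Agent.X212.Rsp69
end
end

-- ▼ part X212/Rsp69/Tm
section

/-! Row 212, RESP (helper69): pairs of necks over the same band; time windows. -/

set_option autoImplicit false
set_option linter.unusedSectionVars false
noncomputable section
open scoped Manifold ContDiff Topology InnerProductSpace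
open MeasureTheory Set Function Filter Real

namespace Crest.Agent.X212.Rsp69
open An Cyf70 Dgr80 Sob92 Nd18 Nka63

variable {E3 : Type} [NormedAddCommGroup E3] [NormedSpace ℝ E3] [FiniteDimensional ℝ E3]
  [MeasurableSpace E3] [BorelSpace E3]
  {H3 : Type} [TopologicalSpace H3] {I3 : ModelWithCorners ℝ E3 H3} [I3.Boundaryless]
  {Y : Type} [TopologicalSpace Y] [ChartedSpace H3 Y] [IsManifold I3 ∞ Y] [T2Space Y]
  [MeasurableSpace Y] [BorelSpace Y] [SecondCountableTopology Y] [CompactSpace Y]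
  {κ : Type} [Fintype κ] {lam : Type} [Fintype lam] {D : YD I3 Y κ lam} {𝒟 : Type*}

theorem D_snd (D : YD I3 Y κ lam) (z : Y × ℝ) : ∑ a, D.Z.D a Prod.snd z ^ 2 = 1 := by
  have h1 := congrFun (D_none_snd D.F.toPre (contDiff_id (𝕜 := ℝ) (E := ℝ) (n := ∞))) z
  have h2 := fun a => congrFun (D_some_snd D.F.toPre (contDiff_id (𝕜 := ℝ) (E := ℝ) (n := ∞)) a) z
  rw [Fintype.sum_option, show D.Z.D none Prod.snd z = _ from h1,
    Finset.sum_eq_zero fun a _ => by rw [show D.Z.D (some a) Prod.snd z = _ from h2 a]; simp]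
  simp

theorem slab (D : YD I3 Y κ lam) (t R : ℝ) : IsCompact {x : Y × ℝ | |x.2 - t| ≤ R} ∧
    D.Z.μ.real {x | |x.2 - t| ≤ R} ≤ vY D * (2 * |R|) := by
  have e : {x : Y × ℝ | |x.2 - t| ≤ R} = D.nk.tm ⁻¹' Icc (t - R) (t + R) := Set.ext fun x => by
    simp only [mem_ofPred_eq, abs_le, mem_preimage, nk_tm, mem_Icc]
    constructor <;> rintro ⟨h1, h2⟩ <;> constructor <;> linarith
  have s : Icc (t - R) (t + R) ⊆ D.nk.J := nk_J D ▸ subset_univ _
  rw [e]
  refine ⟨isCompact_slab D.nk s, ?_⟩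
  rw [Measure.real, show D.Z.μ _ = _ from measure_slab D.nk measurableSet_Icc s, ENNReal.toReal_mul,
    Real.volume_Icc, ENNReal.toReal_ofReal']
  exact mul_le_mul_of_nonneg_left (max_le (by linarith [le_abs_self R]) (by positivity))
    (vY_nonneg D)

variable (D 𝒟) in
/-- families of pairs of necks which contain the band `Dp p q 0` -/
structure NP where
  l : Filter 𝒟
  p : 𝒟 → Option ℝ
  q : 𝒟 → Option ℝ
  C : ℕ → ℝ
  S : 𝒟 → Bool → Mf (Option κ) lam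
  K : ∀ d i, Nk D (S d i).B (S d i).G
  γ : ℝ
  ρ : 𝒟 → ℝ → ℝ
  hD : D.OK
  tz : D.Z.Tame C
  cs : ∀ a, D.Z.CBs (D.Z.D a Prod.snd) C
  tame : ∀ᶠ d in l, ∀ i, (S d i).G.F.IsVol ∧ (S d i).G.F.Tame C
  sub : ∀ᶠ d in l, ∀ i L, Dp (p d) (q d) L ⊆ Dp (K d i).p (K d i).q L
  γ0 : 0 < γ
  γ1 : γ ≤ 1 / 2
  lw : ∀ᶠ d in l, ∀ s t, 0 < ρ d t ∧ ρ d s ≤ exp (γ / 8 * |s - t|) * ρ d t
  off : ∀ᶠ d in l, (∀ a ∈ p d, 1 ≤ ρ d a) ∧ ∀ a ∈ q d, 1 ≤ ρ d a

namespace NP
open Rsp69.Cx Rsp69.Tw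
variable (P : NP D 𝒟)

/-- the band -/
@[reducible] def cx : Cx (IC I3) (Y × ℝ) (Option κ) 𝒟 where
  l := P.l
  F _ := D.Z
  τ _ := Prod.snd
  p := P.p
  q := P.q
  C := P.C
  v R := vY D * (2 * |R|)
  tame := .of_forall fun _ => P.tz
  sτ := .of_forall fun _ => ⟨contMDiff_snd, P.cs⟩
  vol := .of_forall fun _ t R _ => slab D t R

theorem dp (L : ℝ) : P.cx.Ev fun d z => ∀ i, z ∈ (P.K d i).ψ.source ∧
    z.2 ∈ Dp (P.K d i).p (P.K d i).q L ∧ (P.K d i).tm ((P.K d i).ψ z) = z.2 ∧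
      (P.K d i).τ ((P.K d i).ψ z) = z.2 :=
  ⟨|L| + 1, by positivity, P.sub.mono fun d h z hz i =>
    have h1 : z.2 ∈ Dp _ _ 1 := Dp_mono (by linarith [abs_nonneg L]) (h i _ hz)
    have h2 := (P.K d i).mem_src.2 (Dp_sub one_pos h1)
    have h3 := (P.K d i).tm_ψ z h2
    ⟨h2, Dp_mono (by linarith [le_abs_self L]) (h i _ hz), h3, by rw [Nk.τ, h3, tf_eq h1]⟩⟩

/-- the pair of manifolds -/
@[reducible] def tw : Tw P.cx lam where
  S := P.S
  ψ d i := (P.K d i).ψ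
  κ := P.γ
  ρ := P.ρ
  rt := ⟨P.γ0, .of_forall fun _ x => by
    rw [show ∑ a, _ = _ from D_snd D x]; nlinarith [P.γ0, P.γ1], ⟨by linarith [P.γ0], P.lw⟩, P.off⟩
  iso := P.tame.mono fun d h => ⟨P.hD.G.vol, fun i => ⟨(P.K d i).iso, h i⟩⟩
  src := (P.dp 0).mono fun _ _ h i => (h i).1

variable {N : Type} [NormedAddCommGroup N] [NormedSpace ℝ N] {k n : ℕ}

theorem ext {f : Y → N} (hf : Sm I3 f) : P.tw.EC (N := fun _ => N) k fun d i => (P.K d i).ext f :=
  let ⟨_, h⟩ := cbs_ext D hf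
  .fixed (.of_forall fun d i => h (P.K d i)) ((P.dp 2).mono fun d z h => by
    have e := fun i => (P.K d i).ext_ψ f (h i).1
    simp only [fun i => show (P.K d i).cut 1 z.2 = 1 from ct_one (by norm_num; exact (h i).2.1)] at e
    exact (e _).trans (e _).symm)

theorem cut {c : ℝ} (hc : 0 < c) :
    P.tw.EC (N := fun _ => ℝ) k fun d i x => (P.K d i).cut c ((P.K d i).tm x) :=
  let ⟨_, h⟩ := cbs_cut D
  .fixed (.of_forall fun d i => h (P.K d i) c hc) ((P.dp (c + 1)).mono fun d z h => by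
    have e := fun i => show (P.K d i).cut c ((P.K d i).tm ((P.K d i).ψ z)) = 1 by
      rw [(h i).2.2.1]; exact ct_one (h i).2.1
    exact (e _).trans (e _).symm)

theorem cd_of {g : P.tw.Fn} {C : ℕ → ℝ} (h : ∀ d i a, (P.tw.F d i).CBs ((P.tw.F d i).D a (g d i)) C)
    (e : P.cx.Ev fun d x => g d true (P.tw.ψ d true x) = g d false (P.tw.ψ d false x)) :
    P.tw.Cd k g := fun a =>
  .fixed (.of_forall fun d i => h d i a) ((e.nhds.and P.tw.rel).mono fun _ _ h =>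
    ((h.2.2 _).1.D (h.2.2 _).2.1 a (.of_forall fun _ => rfl)).symm.trans
      ((h.2.2 _).1.D (h.2.2 _).2.1 a h.1))

theorem dτ : P.tw.Cd k fun d i => (P.K d i).τ :=
  let ⟨_, h⟩ := cbs_Dτ D
  P.cd_of (fun d i => h (P.K d i)) ((P.dp 0).mono fun _ _ h => (h _).2.2.2.trans (h _).2.2.2.symm)

theorem cdx {f : Y → ℝ} (hf : Sm I3 f) : P.tw.Cd k fun d i => (P.K d i).ext f :=
  let ⟨_, h⟩ := cbs_D_fn D (g := some f) (by rintro _ ⟨⟩; exact hf)
  P.cd_of (fun d i => h (P.K d i)) ((P.dp 2).mono fun d z h => by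
    have e := fun i => (P.K d i).ext_ψ f (h i).1
    simp only [fun i => show (P.K d i).cut 1 z.2 = 1 from ct_one (by norm_num; exact (h i).2.1)] at e
    exact (e _).trans (e _).symm)

/-- fields which are literal on the necks -/
theorem lit {f : Y × ℝ → N} (hf : D.Z.Cb f) {u : P.tw.Sc fun _ => N}
    (e : ∀ d i, ∀ z ∈ (P.K d i).ψ.source, u d i ((P.K d i).ψ z) = f z) : P.tw.EL k u :=
  (Pr.same P.tw.lw (Hk.of_CBs (f := fun _ => f) (.of_forall fun _ => hf.choose_spec))).congr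
    ((P.dp 0).mono fun d z h i => (e d i z (h i).1).symm)

/-- densities with bounded windows -/
def WK (δ : ℝ) (w : P.tw.Fn) : Prop := ∃ b₀, ∀ᶠ d in P.l, ∀ i, Wb (P.K d i) δ b₀ (w d i)

variable {P} {δ : ℝ} {w w' : P.tw.Fn}

theorem WK.of_EC (hδ : 0 < δ) (h : P.tw.EC k w) (h0 : ∀ d i, ∀ x ∉ (P.K d i).dp 1, w d i x = 0) :
    P.WK δ w :=
  let ⟨_, _, hu⟩ := h.u
  ⟨_, (hu.and h.q).mono fun d h i => .of_bd _ hδ (Cb.sm (h.2 i)).continuous.aestronglyMeasurable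
    (h0 d i) (h.1 i)⟩

theorem WK.add (hδ : 0 < δ) (h : P.WK δ w) (h' : P.WK δ w') :
    P.WK δ fun d i x => w d i x + w' d i x := by
  obtain ⟨b₁, h⟩ := h
  obtain ⟨b₂, h'⟩ := h'
  refine ⟨b₁ + b₂, (h.and h').mono fun d h i => ?_⟩
  obtain ⟨a1, a2, a3⟩ := h.1 i
  obtain ⟨c1, c2, c3⟩ := h.2 i
  have p := fun s => (b_pos (half_pos hδ) s).le
  have wi : WI (P.S d i).G.F.μ (P.K d i).τ (δ / 2) fun x => w d i x + w' d i x :=
    ⟨a1.τm, a1.m.add c1.m, (a1.i.add c1.i).mono' (((continuous_b _).comp_aestronglyMeasurable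
      a1.τm).mul (a1.m.add c1.m).norm) (.of_forall fun x => by
        rw [norm_mul, norm_norm, Real.norm_of_nonneg (p _), Pi.add_apply, ← mul_add]
        exact mul_le_mul_of_nonneg_left (norm_add_le _ _) (p _))⟩
  refine ⟨wi, fun t => le_trans ?_ (add_le_add (a2 t) (c2 t)), fun x hx => by
    simp only [a3 x hx, c3 x hx, add_zero]⟩
  rw [wn, wn, wn, ← integral_add (a1.norm.int (half_pos hδ) t) (c1.norm.int (half_pos hδ) t)]
  refine integral_mono (wi.norm.int (half_pos hδ) t)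
    ((a1.norm.int (half_pos hδ) t).add (c1.norm.int (half_pos hδ) t)) fun x => ?_
  rw [← smul_add]
  exact smul_le_smul_of_nonneg_left (norm_add_le _ _) (p _)

/-- **the time step** -/
theorem win (hδ : P.γ ≤ 2 * δ) (h : P.tw.EL 4 w) (hw : P.WK δ w) (s : ℝ) :
    P.tw.EC (N := fun _ => ℝ) k fun d i x =>
      wn (P.S d i).G.F.μ (P.K d i).τ δ (w d i) ((P.K d i).τ x + s) := by
  have γ0 := P.γ0
  have δ0 : 0 < δ := by linarith
  obtain ⟨b₀, hw⟩ := hw
  obtain ⟨c, -, hc⟩ := cbs_bd D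
  have h1 := hw.mono fun d h i => hc (P.K d i) _ _ ((h i).bdd δ0 s)
  refine ⟨h1.mono fun _ h i => ⟨_, h i⟩, ⟨_, abs_nonneg _, h1.mono fun _ h i =>
    CB_bound (CB_abs ((h i).2 0))⟩, fun i => hk_of_CB (T := P.tw) (u := fun d i x =>
      wn (P.S d i).G.F.μ (P.K d i).τ δ (w d i) ((P.K d i).τ x + s))
      (h1.mono fun _ h => ⟨(h i).1, (h i).2 k⟩), ?_⟩
  obtain ⟨L, hL, K₀, hK₀, h⟩ := (show P.cx.Hk P.ρ (0 + 4) _ from h.d).bd
  have h2 := ev_lw.1 (P.tw.rt.rad_in (L := L + 1) (R := 0) (by linarith) le_rfl)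
  have c0 := fun j => cb_nonneg δ j
  have v0 := vY_nonneg D
  refine (Bd.hk P.tw.lw ⟨2 * (L + 1) + 0 + |s|, by positivity, Bk.time (σ := fun _ => Prod.snd) k
    (.of_forall fun _ x _ => contMDiff_snd x)
    (fun a => (Bk.of_CBs (.of_forall fun _ => P.cs a)).mono (.of_forall fun _ => subset_univ _))
    (g := fun d t => wn (P.S d true).G.F.μ (P.K d true).τ δ (w d true) (t + s) -
      wn (P.S d false).G.F.μ (P.K d false).τ δ (w d false) (t + s))
    (K := (∑ j ∈ Finset.range (k + 1), cb δ j) * δ * (8 / δ) * (K₀ * vY D + 2 * |b₀|) *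
      exp (P.γ / 8 * |s|)) ?_⟩).congr ((P.dp 0).mono fun d z h => by
        simp only [(h _).2.2.2])
  filter_upwards [hw, h, h2, P.lw, P.sub] with d hw h h2 lw sub
  have sm := fun i => ((hw i).bdd δ0 s).1
  refine ⟨(sm _).sub (sm _), fun x hx => ⟨(lw 0 _).1.le, fun j hj => ?_⟩⟩
  obtain ⟨r1, r2, r3⟩ := h2 (x.2 + s) (Dp_near hx (by simp))
  have r0 : 0 ≤ rad P.γ P.ρ 0 (d, x.2 + s) := le_max_left _ _
  have k1 := fun i s' (hs : |s' - (x.2 + s)| ≤ _) =>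
    Dp_mono (show 1 ≤ L + 1 by linarith) (sub i _ (Dp_near r1 hs))
  have hb := fun i => wi_half δ0 (hw i).wi
  have e := tdiff δ0 (hw true) (hw false) (continuous_const.mul (continuous_bd δ j))
    (bd_le_exp δ0 j) (k1 _) (k1 _) (A := K₀ * P.ρ d (x.2 + s)) (by positivity) fun z hz =>
      ((h z (Dp_mono (by linarith) (Dp_near r1 hz))).2.2.bd).trans (by
        rw [mul_assoc]
        refine mul_le_mul_of_nonneg_left ((lw _ (x.2 + s)).2.trans ?_) hK₀
        rw [mul_comm]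
        exact mul_le_mul_of_nonneg_left (exp_le_exp.2 (mul_le_mul_of_nonneg_right (by linarith)
          (abs_nonneg _))) r2.le)
  rw [iteratedDeriv_fun_sub ((sm _).of_le (by exact_mod_cast le_top)).contDiffAt
    ((sm _).of_le (by exact_mod_cast le_top)).contDiffAt, iteratedDeriv_comp_add_const,
    iteratedDeriv_comp_add_const, (hb _).iteratedDeriv_wn δ0, (hb _).iteratedDeriv_wn δ0]
  refine e.trans ?_
  have e1 : exp (-(δ / 2 * rad P.γ P.ρ 0 (d, x.2 + s))) * b₀ ≤ P.ρ d (x.2 + s) * |b₀| :=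
    (mul_le_mul_of_nonneg_left (le_abs_self _) (exp_pos _).le).trans (mul_le_mul_of_nonneg_right
      (le_trans (exp_le_exp.2 (by nlinarith)) r3) (abs_nonneg _))
  have e2 := (lw (x.2 + s) x.2).2
  rw [add_sub_cancel_left] at e2
  calc _ ≤ (∑ j ∈ Finset.range (k + 1), cb δ j) * δ * (8 / δ) *
        ((K₀ * vY D + 2 * |b₀|) * P.ρ d (x.2 + s)) := by
        have := c0 j
        refine (mul_le_mul_of_nonneg_left (by linarith) (by positivity)).trans
          (mul_le_mul_of_nonneg_right ?_ (by positivity))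
        gcongr
        exact Finset.single_le_sum (fun j _ => c0 j) (Finset.mem_range.2 (Nat.lt_succ_of_le hj))
    _ ≤ _ := by
        have := Finset.sum_nonneg fun j (_ : j ∈ Finset.range (k + 1)) => c0 j
        rw [← mul_assoc, mul_assoc _ (exp _)]
        gcongr

end NP

end Crest.Agent.X212.Rsp69
end
end

-- ▼ part X212/Rsp69/Nk
section

/-! Row 212, RESP (helper69): the neck terms of two configurations which are close on a band. -/

set_option autoImplicit false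
set_option linter.unusedSectionVars false
noncomputable section
open scoped Manifold ContDiff Topology InnerProductSpace
open MeasureTheory Set Function Filter Real

namespace Crest.Agent.X212.Rsp69
open An Cyf70 Dgr80 Sob92 Nd18 Nka63
open Cyc79 (Cy)

theorem contDiff_nr : ContDiff ℝ ∞ fun t : ℝ => t / √(1 + t ^ 2) :=
  contDiff_id.div ((contDiff_const.add (contDiff_id.pow 2)).sqrt fun _ => by positivity)
    fun _ => by positivity

theorem contDiff_out {C : YTC} (h : ContDiff ℝ ∞ C.k) : ContDiff ℝ ∞ C.out.k :=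
  (contDiff_nr.comp (contDiff_apply ℝ ℝ (0 : Fin (C.m + 1)))).mul
    (h.comp (contDiff_pi.2 fun i => contDiff_apply ℝ ℝ i.succ))

variable {E3 : Type} [NormedAddCommGroup E3] [NormedSpace ℝ E3] [FiniteDimensional ℝ E3]
  [MeasurableSpace E3] [BorelSpace E3]
  {H3 : Type} [TopologicalSpace H3] {I3 : ModelWithCorners ℝ E3 H3} [I3.Boundaryless]
  {Y : Type} [TopologicalSpace Y] [ChartedSpace H3 Y] [IsManifold I3 ∞ Y] [T2Space Y]
  [MeasurableSpace Y] [BorelSpace Y] [SecondCountableTopology Y] [CompactSpace Y]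
  {κ : Type} [Fintype κ] {lam : Type} [Fintype lam] {D : YD I3 Y κ lam} {𝒟 : Type*}

theorem contDiff_cx (N : ND Y lam) : ContDiff ℝ ∞ N.cx :=
  (contDiff_pi.2 fun _ => contDiff_apply ℝ ℝ _).prodMk (contDiff_pi.2 fun j =>
    Complex.equivRealProdCLM.symm.contDiff.comp
      ((contDiff_apply ℝ ℝ (Sum.inr (Sum.inl j) : N.J)).prodMk (contDiff_apply ℝ ℝ _)))

/-- convolution in time as a window integral -/
theorem cv_eq {S : Mf (Option κ) lam} (K : Nk D S.B S.G) (δ : ℝ) (g : ℝ → ℝ) (x : S.M) :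
    cv δ (fun t => K.cut 3 t * g t) (K.τ x) * K.χ x = (vY D)⁻¹ *
      wn S.G.F.μ K.τ δ (fun z => K.cut 3 (K.τ z) * g (K.τ z)) (K.τ x + 0) * K.χ x := by
  by_cases h : K.χ x = 0
  · simp [h]
  have : Nonempty Y := ⟨(K.ψ.symm x).1⟩
  have := openPos D.F.toPre
  have h0 : vY D ≠ 0 :=
    (ENNReal.toReal_pos (isOpen_univ.measure_pos _ univ_nonempty).ne' (measure_ne_top _ _)).ne'
  have h1 : ∀ s, K.cut 3 s * K.cut 1 s = K.cut 3 s := fun s => by
    by_cases e : s ∈ Dp K.p K.q 3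
    · rw [show K.cut 1 s = 1 from ct_one (Dp_mono (by norm_num) e), mul_one]
    · rw [show K.cut 3 s = 0 from ct_zero e, zero_mul]
  have h2 := integral_time_χ K fun s => b δ (s - K.τ x) * (K.cut 3 s * g s)
  have h3 : ∀ s, b δ (s - K.τ x) * (K.cut 3 s * g s) * K.cut 1 s =
      b δ (s - K.τ x) * (K.cut 3 s * g s) := fun s => by
    linear_combination (b δ (s - K.τ x) * g s) * h1 s
  simp only [χ_eq K, h3] at h2
  rw [wn, add_zero]
  simp only [smul_eq_mul]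
  rw [h2, inv_mul_cancel_left₀ h0, cv]
  congr 2
  funext t
  rw [← b_neg, neg_sub, mul_comm]

namespace NP
open Rsp69.Cx Rsp69.Tw
variable {P : NP D 𝒟} {n₀ j k n : ℕ} (c : P.tw.CF n₀) (N : ND Y lam)

theorem compF {α : Type} [Fintype α] {g : (α → ℝ) → ℝ} (hg : ContDiff ℝ ∞ g) (hj : 8 ≤ j)
    {u : α → P.tw.Fn} (h : ∀ a, P.tw.EC j (u a)) :
    P.tw.EC (N := fun _ => ℝ) j fun d i x => g fun a => u a d i x := by
  classical
  exact EC.comp (hg.comp (PiLp.continuousLinearEquiv 2 ℝ fun _ : α => ℝ).contDiff) hj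
    ((EC.sum Finset.univ fun a _ => (h a).clm (L := fun _ => sgl ℝ a) (.const _)).congr'
      fun _ _ _ => sum_sgl _)

variable (P) in
theorem cd : ∀ {g : Option (Y → ℝ)}, OF I3 g → P.tw.Cd j fun d i => (P.K d i).fn g
  | none, _ => P.dτ
  | some f, hg => P.cdx (hg f rfl)

variable (P) in
theorem lt : ∀ {t : YL Y}, t.OK I3 → P.tw.LtY j fun d i => (P.K d i).lt t
  | .mul _, ht => .mul (P.ext ht)
  | .cl _, ht => .cl (P.cd ht)
  | .im, _ => .im
  | .G, _ => .G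

variable (P) in
theorem la : ∀ {t : La Y}, laOK I3 t → P.tw.LaY j fun d i => (P.K d i).la t
  | .mul _, ht => .mul (P.ext ht)
  | .G, _ => .G

variable (P) in
theorem sw {u : List (YL Y)} (hu : ∀ t ∈ u, YL.OK I3 t) :
    Fa (P.tw.LtY j) fun d i => u.map (P.K d i).lt := .list fun t ht => P.lt (hu t ht)

variable (P) in
theorem las {u : List (La Y)} (hu : ∀ t ∈ u, laOK I3 t) :
    Fa (P.tw.LaY j) fun d i => u.map (P.K d i).la := .list fun t ht => P.la (hu t ht)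

/-- the cyclic seeds -/
def NC (j : ℕ) : Prop :=
  ∀ e : Cy Y, e.OK D.F → c.SedS j fun d i => ((P.K d i).cyc e).sed (P.tw.F d i)

/-- the hypotheses on a pair of configurations -/
structure NH (j : ℕ) : Prop where
  o : c.OK (fun d i => (P.K d i).dp 1) j
  nd : N.OK D
  γ : P.γ ≤ 2 * N.δ
  p : P.tw.EL j c.p
  ew : P.WK N.δ fun d i x => (P.K d i).χ4 x *
    ‖(P.K d i).χ4 x • nt (P.tw.F d i) (c.W d i) (P.K d i).τ (c.Φ d i) x‖ ^ 2

namespace NH
variable {c N} (h : NH c N j)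
include h

theorem h7 : 7 ≤ j := h.o.h7

theorem om : P.tw.EL (N := fun _ => En (Fin n₀)) j fun d i => (c.m d i).om (P.S d i).B :=
  have m : ∀ {u v : P.tw.Sc fun _ => En (Fin n₀)}, P.tw.EL j u → P.tw.EL j v →
      P.tw.EL (N := fun _ => En (Fin n₀)) j fun d i x => u d i x * v d i x := fun hu hv =>
    hu.bil h.h7 le_rfl (B := fun _ => ContinuousLinearMap.mul ℝ _) (.const _) hv
  have r := fun a => (h.o.ρ a).el
  (EC.const (c := fun _ => (1 / 24 : ℝ)) (.const _)).el.smul h.h7 le_rfl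
    (.sum _ fun a _ => .sum _ fun a' _ => .sum _ fun a'' _ => .sum _ fun a''' _ =>
      (P.lit (Cht98.Cb_fst _ (Cb_of_compact (sm_slice_fst (P.hD.B.so a a' a'' a''') 0)))
        fun d i => (P.K d i).o a a' a'' a''').smul h.h7 le_rfl (m (m (m (r _) (r _)) (r _)) (r _)))

theorem pp : P.tw.EL (N := fun _ => En (Fin n₀)) j fun d i => (c.m d i).pp (P.S d i).B :=
  (EC.const (c := fun _ => (1 / 2 : ℝ)) (.const _)).el.smul h.h7 le_rfl (h.p.sub h.om)

theorem pm : P.tw.EL (N := fun _ => En (Fin n₀)) j fun d i => (c.m d i).pm (P.S d i).B :=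
  (EC.const (c := fun _ => (1 / 2 : ℝ)) (.const _)).el.smul h.h7 le_rfl (h.p.add h.om)

theorem sd (s t : Option κ × Option κ) :
    P.tw.EL (N := fun _ => ℝ) j fun d i x => (P.S d i).B.sd x s t :=
  have p := fun a b => (⟨_, P.tz.P a b⟩ : D.Z.Cb (D.Z.P a b))
  have hf := fun {f : Y × ℝ → ℝ} (hf : D.Z.Cb f) => Cb_smul (Cb_const (1 / 2 : ℝ)) hf
  P.lit (hf (Cb.add (hf (Cb.sub (Cb_smul (p s.1 t.1) (p s.2 t.2)) (Cb_smul (p s.1 t.2) (p s.2 t.1))))
    (hf (Cht98.Cb_fst _ (Cb_of_compact (sm_slice_fst (P.hD.B.so s.1 s.2 t.1 t.2) 0))))))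
    fun d i z hz => by
      simp only [Base.sd, Base.a2, Base.st, (P.K d i).P _ _ z hz, (P.K d i).o _ _ _ _ z hz,
        smul_eq_mul, ← P.hD.G.P]
      show _ = 1 / 2 * (1 / 2 * (D.G.F.P _ _ z * D.G.F.P _ _ z - D.G.F.P _ _ z * D.G.F.P _ _ z) +
        1 / 2 * D.B.o _ _ _ _ z)
      ring

theorem p2 {u : P.tw.Sc c.S2} (hu : P.tw.EL j u) :
    P.tw.EL (N := c.S2) j fun d i x => (c.m d i).p2 (P.S d i).B x (u d i x) :=
  have e := EL.toLp (P := HS (Fin n₀)) fun s => EL.sum Finset.univ fun t _ => (h.sd s t).smul h.h7 le_rfl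
    (h.o.pg.el.app h.h7 le_rfl
      (hu.clm (L := fun _ => PiLp.proj 2 (fun _ => HS (Fin n₀)) t) (.const _)))
  e.congr' fun _ _ _ => PiLp.ext fun _ => (Wz78.idx_apply ..).symm

/-- the densities are cut-off densities of the calculus -/
theorem den (hC : NC c j) (k : N.J) : ∃ e, c.DenS j e ∧
    ∀ d i, (N.dg (P.K d i)).d k = dcut (P.K d i).χ (e d i) := by
  have o := h.o
  rcases k with k | k | k
  · have := h.nd.d0 k
    cases e : N.d0 k with
    | sw u v =>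
      rw [e] at this
      exact ⟨_, o.denSw o.pk_one (P.sw this.1) (P.sw this.2), fun i y => by
        simp only [ND.dg, Sum.elim_inl, e]; rfl⟩
    | cy d w d' w' =>
      rw [e] at this
      exact ⟨_, .sed o.h7 (o.sedWd (hC d this.1) (P.las this.2.1))
        (o.sedWd (hC d' this.2.2.1) (P.las this.2.2.2)), fun i y => by
        simp only [ND.dg, Sum.elim_inl, e]; rfl⟩
  · obtain ⟨h1, h2, h3⟩ := h.nd.d2 k
    exact ⟨_, o.denSw (o.pk_re (P.ext h1)) (P.sw h2) (P.sw h3), fun _ _ => rfl⟩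
  · obtain ⟨h1, h2, h3⟩ := h.nd.d2 k
    exact ⟨_, o.denSw (o.pk_im (P.ext h1)) (P.sw h2) (P.sw h3), fun _ _ => rfl⟩

theorem winC {w : P.tw.Fn} (hw : P.tw.EC j w) (h0 : ∀ d i, ∀ x ∉ (P.K d i).dp 1, w d i x = 0) :
    P.tw.EC (N := fun _ => ℝ) j fun d i x =>
      wn (P.S d i).G.F.μ (P.K d i).τ N.δ (w d i) ((P.K d i).τ x + 0) :=
  win h.γ (hw.el.of_le (by have := h.h7; omega)) (.of_EC h.nd.δ0 hw h0) 0

theorem β (hC : NC c j) (k : N.J) : P.tw.EC (N := fun _ => ℝ) j fun d i x =>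
    (N.dg (P.K d i)).β (P.tw.F d i) (c.c d i) k ((P.K d i).τ x) * (P.K d i).χ x := by
  choose e d1 d2 using h.den hC
  have sm : ContDiff ℝ ∞ fun v => fderiv ℝ (fun x => N.φ (N.cx x)) v (Pi.single k 1) :=
    ((h.nd.sm.comp (contDiff_cx N)).fderiv_right (m := ∞) le_rfl).clm_apply contDiff_const
  have h1 := (P.cut (c := 3) (by norm_num)).mul h.h7 (compF sm h.o.hn fun k => h.winC
    (w := fun d i => ((N.dg (P.K d i)).d k).h (c.c d i))
    (((P.cut one_pos).mul h.h7 (d1 k).h).congr' fun i y x => by rw [d2]; rfl)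
    fun i y x hx => by rw [d2]; exact mul_eq_zero_of_left ((P.K i y).χ_zero hx) _)
  refine (((EC.const (c := fun _ => (vY D)⁻¹) (.const _)).mul h.h7 (h.winC h1 fun i y x hx =>
    mul_eq_zero_of_left (ct_zero fun e => hx (Dp_mono (by norm_num) e)) _)).mul h.h7
      (P.cut one_pos)).congr' fun i y x => ((cv_eq (P.K i y) N.δ _ x).trans ?_).symm
  simp only [add_zero, (P.K i y).cut_τ (show (1 : ℝ) ≤ 3 by norm_num)]
  rfl

theorem gA (hC : NC c j) : P.tw.EL (N := c.S1) j fun d i =>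
    (N.dg (P.K d i)).gA (P.tw.F d i) (c.c d i) := EL.sum Finset.univ fun k _ =>
  let ⟨_, d1, d2⟩ := h.den hC k
  (d1.gA _ (h.β hC k)).congr' fun i y x => by rw [d2]; rfl

theorem gP (hC : NC c j) : P.tw.EL (N := c.SV) j fun d i =>
    (N.dg (P.K d i)).gP (P.tw.F d i) (c.c d i) := EL.sum Finset.univ fun k _ =>
  let ⟨_, d1, d2⟩ := h.den hC k
  (d1.gP _ (h.β hC k)).congr' fun i y x => by rw [d2]; rfl

theorem q1D (hC : NC c j) :
    P.tw.EL (N := c.SV) j fun d i => (N.q1 (n := n) (P.K d i)).D (c.c d i) :=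
  have e1 := h.pp.app (N := c.SV) (N' := c.SV) h.h7 le_rfl (h.gP hC)
  have e2 := fun a => (h.o.ρ a).el.app (N := c.SV) (N' := c.SV) h.h7 le_rfl e1
  have e := (EL.sum Finset.univ fun a _ => (P.dτ a).el.smul h.h7 le_rfl (e2 a)).neg
  e.congr' fun _ _ _ => rfl

theorem q1C (hC : NC c j) :
    P.tw.EL (N := c.S2) j fun d i => (N.q1 (n := n) (P.K d i)).C (c.c d i) :=
  have e := EL.toLp fun s : Option κ × Option κ => (P.dτ s.1).el.smul h.h7 le_rfl ((h.gA hC).clm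
    (L := fun _ => PiLp.proj 2 (fun _ => HS (Fin n₀)) s.2) (.const _))
  have e' := (EC.const (c := fun _ => (-8 : ℝ)) (.const _)).el.smul h.h7 le_rfl (h.p2 e)
  e'

theorem wew (s : ℝ) : P.tw.EC (N := fun _ => ℝ) j fun d i x =>
    wn (P.S d i).G.F.μ (P.K d i).τ N.δ (N.ew (P.K d i) (c.c d i)) ((P.K d i).τ x + s) := by
  have χ := fun {j} => P.cut (k := j) (c := 4) (by norm_num)
  have z := fun d i x (hx : x ∉ (P.K d i).dp 1) => show (P.K d i).χ4 x = 0 from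
    ct_zero fun e => hx (Dp_mono (by norm_num) e)
  have h1 := χ.mul h.h7 (EC.sum Finset.univ fun k _ =>
    have := h.o.cvY χ z P.dτ (P.cdx (h.nd.sy k)); this.inner h.h7 this)
  have h2 := χ.el.smul le_rfl le_rfl (h.o.ntΦ (k := 7) h.o.hn P.dτ)
  have h3 := χ.el.smul le_rfl le_rfl (h2.inner le_rfl h2)
  simp only [real_inner_self_eq_norm_sq] at h1 h3
  have e := win (k := j) h.γ ((h1.el.of_le (by have := h.h7; omega)).add (h3.of_le (by omega)))
    ((WK.of_EC h.nd.δ0 h1 fun d i x hx => mul_eq_zero_of_left (z d i x hx) _).add h.nd.δ0 h.ew) s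
  simp only [smul_eq_mul, ← mul_add] at e
  exact e

theorem tc {C : YTC} (hC : ContDiff ℝ ∞ C.k) : P.tw.EC (N := fun _ => ℝ) j fun d i x =>
    (N.tc (P.K d i) C).val (P.tw.F d i) (P.K d i).τ N.δ (c.c d i) ((P.K d i).τ x) :=
  compF (hC.comp (contDiff_pi.2 fun i => contDiff_nr.comp (contDiff_apply ℝ ℝ i))) h.o.hn
    fun i => h.wew (C.s i)

theorem tl {u : List (YL Y ⊕ YTC)} (hu : tlOK I3 u) : Fa (P.tw.LtY j) fun d i =>
    (u.map (N.tl (P.K d i))).map (Dgr80.tl (P.tw.F d i) (P.K d i).τ N.δ (c.c d i)) := by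
  simp only [List.map_map]
  refine .list fun t ht => ?_
  have := hu t ht
  rcases t with t | C
  · exact P.lt this
  · exact .mul ((P.cut one_pos).mul h.h7 (h.tc this.1))

theorem ta {u : List (La Y ⊕ YTC)} (hu : taOK I3 u) : Fa (P.tw.LaY j) fun d i =>
    (u.map (N.ta (P.K d i))).map (Dgr80.ta (P.tw.F d i) (P.K d i).τ N.δ (c.c d i)) := by
  simp only [List.map_map]
  refine .list fun t ht => ?_
  have := hu t ht
  rcases t with t | C
  · exact P.la this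
  · exact .mul ((P.cut one_pos).mul h.h7 (h.tc this.1))

variable {T : YT Y} (hT : T.OK I3)
include hT

theorem oc : P.tw.EC (N := fun _ => ℝ) j fun d i => N.oc (P.K d i) T (c.c d i) :=
  ((P.cut (c := 3) (by norm_num)).mul h.h7
    (h.tc (contDiff_out (C := T.C) (by cases T <;> exact hT.1.1)))).congr'
    fun i y x => by rw [ND.oc, (P.K i y).cut_τ (by norm_num)]

theorem tD : P.tw.EL (N := c.SV) j fun d i =>
    (c.c d i).tD (P.S d i).B (P.tw.F d i) (N.tm (P.K d i) (c.c d i) n T) := by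
  cases T with
  | lin C u => exact h.pm.app h.h7 le_rfl (h.o.sw (h.tl hT.2)).el
  | _ => exact EL.zero

theorem tC : P.tw.EL (N := c.S2) j fun d i =>
    (c.c d i).tC (P.S d i).B (P.tw.F d i) (N.tm (P.K d i) (c.c d i) n T) := by
  cases T with
  | lin C u => exact EL.zero
  | ad C g u v l =>
    obtain ⟨-, h1, h2, h3, h4⟩ := hT
    exact h.p2 (h.o.wedge P.dτ (P.cdx h1) (h.o.wdA (h.ta h4) (h.o.qY (h.tl h2) (h.tl h3))).el)
  | cv C g f g1 g2 l =>
    obtain ⟨-, h1, h2, h3, h4, h5⟩ := hT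
    exact h.p2 (h.o.wedge P.dτ (P.cdx h1) (h.o.wdA (h.ta h5)
      (h.o.cvY (P.ext h2) (fun d i _ => (P.K d i).ext_zero f) (P.cd h3) (P.cd h4))).el)

theorem q2D : P.tw.EL (N := c.SV) j fun d i => (N.q2 (n := n) (P.K d i) T).D (c.c d i) :=
  have e := (h.oc hT).el.smul h.h7 le_rfl (EL.nrm (P := Eu (Fin n₀)) h.o.hn (h.tD (n := n) hT))
  e

theorem q2C : P.tw.EL (N := c.S2) j fun d i => (N.q2 (n := n) (P.K d i) T).C (c.c d i) :=
  have e := (h.oc hT).el.smul h.h7 le_rfl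
    (EL.nrm (P := Fm (Option κ × Option κ) (HS (Fin n₀))) h.o.hn (h.tC (n := n) hT))
  e

end NH
end NP

end Crest.Agent.X212.Rsp69
end
end

-- ▼ part X212/Rsp69/Cyc

/-! Row 212, RESP (helper69): the cyclic seeds of a pair (the section `fib` follows Hd34/Fin). -/

set_option autoImplicit false
set_option linter.unusedSectionVars false
set_option maxSynthPendingDepth 3
noncomputable section
open scoped Manifold ContDiff Topology InnerProductSpace
open MeasureTheory Set Function Filter Real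

namespace Crest.Agent.X212.Rsp69
open An Sob92 Wz78 Dgr80
open Cyc79 hiding tpL cf
open Wrd81 (wd)

section gen
variable {E : Type} [NormedAddCommGroup E] [NormedSpace ℝ E] [FiniteDimensional ℝ E]
  [MeasurableSpace E] [BorelSpace E]
  {HM : Type} [TopologicalSpace HM] {I : ModelWithCorners ℝ E HM} [I.Boundaryless]
  {M : Type} [TopologicalSpace M] [ChartedSpace HM M] [IsManifold I ∞ M]
  [MeasurableSpace M] [T2Space M] [BorelSpace M] [SecondCountableTopology M]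
  {ι : Type} [Fintype ι] {𝒟 : Type*} {lam : Type} [Fintype lam]
  {ν : Type} [Fintype ν] [DecidableEq ν] {W : Type}
  [NormedAddCommGroup W] [InnerProductSpace ℝ W] [CompleteSpace W]

section fib
variable {K K' : Type} [NormedAddCommGroup K] [InnerProductSpace ℝ K] [CompleteSpace K]
  [NormedAddCommGroup K'] [InnerProductSpace ℝ K'] [CompleteSpace K']
  (F : Fr I M ι) (A : ι → M → En ν) (r : CL W (En ν))

/-- words on the fibre `Fm ν K` -/
def wK (s : M → Fm ν K) (w : List (La M)) : M → Fm ν K := wd (sl F (aA K A)) s (w.map (laV _))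

/-- `gc` on the fibre `Fm ν K` -/
def gK (s : M → Fm ν K) (w : List (La M)) (l : M → Fm ν K) : M → Fm ι W :=
  gc F (aA K A) (amp K ∘L r) s (w.map (laV _)) l

/-- `gh` on the fibre `Fm ν K` -/
def hK (b b' : M → Fm ν K) (x x' w w' : List (La M)) (ξ : M → W) (z : M) : Fm ι W :=
  gK F A r b' (w ++ x) (fun y => (amp K ∘L r) (ξ y) (wK F A b' (w' ++ x) y)) z +
    gK F A r b x' (bk F (aA K A) ((w ++ x).map (laV _)) fun y =>
      (amp K ∘L r) (ξ y) (wK F A b w' y)) z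

theorem norm_ampL : ‖amp K ∘L r‖ ≤ ‖r‖ := ContinuousLinearMap.opNorm_le_bound _ (norm_nonneg _)
  fun ξ => (ContinuousLinearMap.opNorm_le_bound _ (norm_nonneg _) (norm_amp _)).trans (r.le_opNorm ξ)

variable {F A} {R : K →L[ℝ] K'} (hR : ∀ h h', ⟪R h, R h'⟫_ℝ = ⟪h, h'⟫_ℝ) (hA : Ok F A)
  {S T : K →L[ℝ] KK F.toPre ν} {s l : M → Fm ν K} {w : List (La M)}
include hR

theorem tp_fb (a b : Fm ν K) : tp (amp K' ∘L r) (fb R a) (fb R b) = tp (amp K ∘L r) a b :=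
  ext_inner_right ℝ fun ξ => by
    simp only [inner_tp, ContinuousLinearMap.comp_apply, ← fb_amp, PiLp.inner_apply, fb_apply, hR]

include hA

theorem gK_fb (hs : FI F S s) (hw : ∀ t ∈ w, La.OK F t) : ∀ {T l}, FI F T l →
    gK F A r (fun z => fb R (s z)) w (fun z => fb R (l z)) = gK F A r s w l := by
  induction w with
  | nil => exact fun _ => rfl
  | cons t w ih =>
    intro T l hl
    have hw' : ∀ u ∈ w, La.OK F u := fun u hu => hw u (by simp [hu])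
    have ht := hw t (by simp)
    have h1 := ih hw' (hl.la hA ht)
    have g : ∀ {T l} {t : La M}, FI F T l → La.OK F t → sl F (aA K' A) (laV _ t)
        (fun z => fb R (l z)) = fun z => fb R (sl F (aA K A) (laV _ t) l z) := fun hl ht =>
      hl.wd_fb hA (w := [_]) (by simpa using ht) R
    rw [← g hl ht, ← slT_laV, ← slT_laV] at h1
    cases t with
    | mul f => exact h1
    | G =>
      have h2 := hs.wd hA hw'
      have e1 : F.res _ _ = _ := g (t := .G) hl trivial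
      have e2 : F.res _ _ = _ := g (t := .G) h2 trivial
      funext x
      refine congrArg₂ (· - ·) (congrFun h1 x) ?_
      rw [hs.wd_fb hA hw', e1, e2]
      simp only [cur, fb_nab (hl.la hA ht).sm, fb_nab (h2.la hA ht).sm, tp_fb r hR]
      rfl

theorem hK_fb {x x' w' : List (La M)} {ξ : M → W} (hs : FI F S s) (hl : FI F T l)
    (hx : ∀ t ∈ x, La.OK F t) (hx' : ∀ t ∈ x', La.OK F t) (hw : ∀ t ∈ w, La.OK F t)
    (hw' : ∀ t ∈ w', La.OK F t) (hξ : F.Cb ξ) :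
    hK F A r (fun z => fb R (s z)) (fun z => fb R (l z)) x x' w w' ξ =
      hK F A r s l x x' w w' ξ := funext fun z => by
  have a : ∀ {w}, (∀ t ∈ w, La.OK F t) → ∀ t ∈ w ++ x, La.OK F t := fun hw t ht =>
    (List.mem_append.1 ht).elim (hw t) (hx t)
  have b : ∀ t ∈ (w ++ x).reverse, La.OK F t := fun t ht => a hw t (List.mem_reverse.1 ht)
  have h1 := (hl.wd hA (a hw')).op (Cb_clm r hξ)
  have h2 := (hs.wd hA hw').op (Cb_clm r hξ)
  simp only [hK, wK, bk_laV, hl.wd_fb hA (a hw'), hs.wd_fb hA hw', ContinuousLinearMap.comp_apply,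
    ← fb_amp, h2.wd_fb hA b, gK_fb r hR hA hl (a hw) h1, gK_fb r hR hA hs hx' (h2.wd hA b)]

end fib

namespace Tw
open Rsp69.Cx
variable {X : Cx I M ι 𝒟} {T : Tw X lam} {n N : ℕ} {w w' x x' : ∀ d i, List (La (T.S d i).M)}
  {A : ∀ d i, ι → (T.S d i).M → En ν} {p : T.Sc fun _ => En ν} {f f' : T.Fn}
  {K : 𝒟 → Type} [∀ d, NormedAddCommGroup (K d)] [∀ d, InnerProductSpace ℝ (K d)]
  [∀ d, CompleteSpace (K d)]

theorem Fa.laOK (hw : Fa (T.LaY n) w) : ∀ᶠ d in X.l, ∀ i, ∀ t ∈ w d i, La.OK (T.F d i) t := by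
  induction hw with
  | nil => simp
  | cons ht _ ih =>
    cases ht with
    | mul hf => exact (hf.q.and ih).mono fun _ h i => List.forall_mem_cons.2 ⟨h.1 i, h.2 i⟩
    | G => exact ih.mono fun _ h i => List.forall_mem_cons.2 ⟨trivial, h i⟩

theorem Fa.slkQ (hn : 7 ≤ n) (hw : Fa (T.LaY n) w) : Fa (T.SLk (V := fun d => Fm ν (K d))
    (fun d i => QI (T.F d i) (p d i)) n) fun d i => (w d i).map (laV _) := hw.map fun t ht => by
  cases ht with
  | @mul f hf =>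
    have e : ∀ u, T.EP (N := fun d => Fm ν (K d)) (fun d i => QI (T.F d i) (p d i)) n u →
        T.EP (N := fun d => Fm ν (K d)) (fun d i => QI (T.F d i) (p d i)) n
          fun d i x => f d i x • u d i x := fun u hu =>
      ⟨(hf.q.and hu.q).mono fun _ h i => (ok_laV (t := .mul _) (h.1 i) _ (h.2 i)).1,
        hf.u.bil (B := fun d => ContinuousLinearMap.lsmul ℝ ℝ (E := Fm ν (K d)))
          (.of_le 1 fun _ => ContinuousLinearMap.opNorm_lsmul_le) hu.u, hf.el.smul hn le_rfl hu.el⟩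
    exact .inl ⟨_, rfl, e, fun u hu => (e u hu).congr' fun _ _ _ => by
      simp [ContinuousLinearMap.one_def]⟩
  | G => exact .inr rfl

theorem Eng.hK (h : T.Eng (V := fun d => Fm ν (K d)) (fun d i => QI (T.F d i) (p d i)) n
      fun d i => aA (K d) (A d i)) (r : CL W (En ν)) {b b' : T.Sc fun d => Fm ν (K d)}
    (hb : T.EP (fun d i => QI (T.F d i) (p d i)) n b)
    (hb' : T.EP (fun d i => QI (T.F d i) (p d i)) n b') (hx : Fa (T.LaY n) x) (hx' : Fa (T.LaY n) x')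
    (hw : Fa (T.LaY n) w) (hw' : Fa (T.LaY n) w') {ξ : T.Sc fun _ => W} (hξ : T.EC n ξ)
    (e : ∀ d i z, p d i z * (r (ξ d i z) * p d i z) = r (ξ d i z) * p d i z) :
    T.EL (N := fun _ => Fm ι W) n fun d i =>
      hK (T.F d i) (A d i) r (b d i) (b' d i) (x d i) (x' d i) (w d i) (w' d i) (ξ d i) := by
  have hr : Ub X.l fun d => ‖amp (K d) ∘L r‖ := .of_le ‖r‖ fun _ => norm_ampL r
  have m : ∀ {u : T.Sc fun d => Fm ν (K d)}, T.EP (fun d i => QI (T.F d i) (p d i)) n u →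
      T.EP (N := fun d => Fm ν (K d)) (fun d i => QI (T.F d i) (p d i)) n
        fun d i z => (amp (K d) ∘L r) (ξ d i z) (u d i z) := fun hu =>
    ⟨(hξ.q.and hu.q).mono fun d h i => (h.2 i).op (Cb_clm r (h.1 i)) (e d i), hξ.u.bil hr hu.u,
      hξ.el.bil h.h7 le_rfl hr hu.el⟩
  exact (h.gc hr hb' ((hw.append hx).slkQ h.h7) (m (h.wd ((hw'.append hx).slkQ h.h7) hb'))).add
    (h.gc hr hb (hx'.slkQ h.h7) (h.bk ((hw.append hx).slkQ h.h7) (m (h.wd (hw'.slkQ h.h7) hb))))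

namespace CF.OK
variable {κ : T.CF N} {Z : ∀ d i, Set (T.S d i).M} (h : κ.OK Z n)
include h

theorem pa : T.PA n κ.A fun d i => (κ.m d i).pg :=
  ⟨h.hn, h.gd.mono fun _ h i => ⟨(h i).pp, (h i).toCO.pq⟩, h.elA, h.pg.el⟩

/-- **the cyclic seeds** -/
theorem cyc (H : T.HD (Fin N × Fin N)) (s : T.SepT n f f') (s' : T.SepT n f' f)
    (hw : Fa (T.LaY n) w) (hw' : Fa (T.LaY n) w') :
    κ.SedS n fun d i => Cy.sed ⟨f d i, f' d i, w d i, w' d i⟩ (T.F d i) := by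
  obtain ⟨sp, hb⟩ := h.pa.bsE H s
  obtain ⟨-, hb'⟩ := h.pa.bsE H s'
  have hE := h.pa.eng H
  have x1 : Fa (T.LaY n) fun d i => xw (f d i) (f' d i) :=
    .cons (.mul s.1) (.cons .G (.cons (.mul s'.1) .nil))
  have x2 : Fa (T.LaY n) fun d i => xw (f' d i) (f d i) :=
    .cons (.mul s'.1) (.cons .G (.cons (.mul s.1) .nil))
  have a := hE.wd ((hw.append x1).slkQ h.h7) hb'
  have b := hE.wd ((hw'.append x1).slkQ h.h7) hb'
  have hr : Ub X.l fun d => ‖tpL (amp (H.H d) ∘L adR (Fin N))‖ :=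
    .of_le ‖adR (Fin N)‖ fun _ => (norm_tpL _).trans (norm_ampL _)
  have k := (((h.pa.pp.and sp).and H.iso).and hw.laOK).and hw'.laOK
  refine ⟨EP.congr (h.pg.app (N := κ.SA) (N' := κ.SA) h.h7 le_rfl
    ⟨(a.q.and b.q).mono fun _ h i => Cb_bil _ (h.1 i).cb (h.2 i).cb, a.u.bil hr b.u,
      a.el.bil h.h7 le_rfl hr b.el⟩) (k.mono fun d k i => funext fun z => ?_), fun l hl => ?_,
    fun _ _ => EL.zero⟩
  · have o := (k.1.1.1.1 i).1
    have f2 := o.fi (k.1.1.1.2 i).symm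
    have ok := fun {w} => Cy.OK.W (d := ⟨f d i, f' d i, _, _⟩) (w := w) ⟨k.1.1.1.2 i, k.1.2 i, k.2 i⟩
    rw [f2.wd_fb o.toOk (ok (k.1.2 i)), f2.wd_fb o.toOk (ok (k.2 i))]
    exact congrArg _ (tp_fb _ (k.1.1.2 i) _ _)
  · have hξ := h.pg.app (N := κ.SA) (N' := κ.SA) h.h7 le_rfl hl
    have e := fun {w w'} (hw : Fa (T.LaY n) w) (hw' : Fa (T.LaY n) w') =>
      (hE.hK (adR _) hb hb' x1 x2 hw hw' hξ fun d i z => pg_adR z _).congr
        (((((h.pa.pp.and sp).and H.iso).and hw.laOK).and (hw'.laOK.and hξ.q)).mono fun d k i =>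
          hK_fb (adR _) (k.1.1.2 i) (k.1.1.1.1 i).1.toOk ((k.1.1.1.1 i).1.fi (k.1.1.1.2 i))
            ((k.1.1.1.1 i).1.fi (k.1.1.1.2 i).symm) (k.1.1.1.2 i).ok (k.1.1.1.2 i).symm.ok
            (k.1.2 i) (k.2.1 i) (k.2.2 i))
    exact ((e hw' hw).sub (e hw hw')).congr' fun _ _ _ => rfl

end CF.OK
end Tw
end gen

open Nd18 Nka63

variable {E3 : Type} [NormedAddCommGroup E3] [NormedSpace ℝ E3] [FiniteDimensional ℝ E3]
  [MeasurableSpace E3] [BorelSpace E3]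
  {H3 : Type} [TopologicalSpace H3] {I3 : ModelWithCorners ℝ E3 H3} [I3.Boundaryless]
  {Y : Type} [TopologicalSpace Y] [ChartedSpace H3 Y] [IsManifold I3 ∞ Y] [T2Space Y]
  [MeasurableSpace Y] [BorelSpace Y] [SecondCountableTopology Y] [CompactSpace Y]
  {κ : Type} [Fintype κ] {lam : Type} [Fintype lam] {D : YD I3 Y κ lam} {𝒟 : Type*}

namespace NP
open Rsp69.Cx Rsp69.Tw
variable (P : NP D 𝒟) {n₀ n : ℕ}

theorem sepT {f f' : Y → ℝ} (h : Sep D.F.toPre f f') :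
    P.tw.SepT n (fun d i => (P.K d i).ext f) fun d i => (P.K d i).ext f' := by
  obtain ⟨h1, h2, φ, h3, h4, h5⟩ := h
  have h6 : D.F.Cb fun y => (3 : ℝ) • φ y := Cb_smul (Cb_const _) h3
  obtain ⟨C, hC⟩ := cbs_ex2 D h6.choose_spec.1
  obtain ⟨C', hC'⟩ := Cht98.Cb_fst D.F.toPre h6
  have e := fun d i x (hx : (P.K d i).χ x ≠ 0) => ex2_eq (P.K d i) (fun y => (3 : ℝ) • φ y)
    (mem_O_of_χ _ hx)
  refine ⟨P.ext h1.choose_spec.1, fun d i => ex2 (P.K d i) fun y => (3 : ℝ) • φ y,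
    fun _ z => (3 : ℝ) • φ z.1, fun k => max (C k) (C' k), ⟨P.ext h2.choose_spec.1,
      .of_forall fun d => ⟨⟨hC'.1, fun k => CB_mono (hC'.2 k) (le_max_right _ _)⟩, fun i =>
        ⟨⟨(hC (P.K d i)).1, fun k => CB_mono ((hC (P.K d i)).2 k) (le_max_left _ _)⟩,
          fun x hx => ?_⟩⟩, (P.dp 2).mono fun d z h i => ?_⟩, .of_forall fun d i x hx => ?_⟩
  · rw [e d i x (left_ne_zero_of_smul hx), smul_eq_mul]
    linarith [h5 _ (right_ne_zero_of_smul hx)]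
  · rw [e d i _ (by
      rw [(P.K d i).χ_one (x := (P.K d i).ψ z) (by rw [Nk.dp, mem_preimage, (h i).2.2.1]; exact (h i).2.1)]
      exact one_ne_zero), (P.K d i).ψ.left_inv (h i).1]
  · beta_reduce
    rw [e d i x (left_ne_zero_of_smul hx), smul_eq_mul]
    linarith [h4 _ (right_ne_zero_of_smul hx)]

theorem hd (ν : Type) [Fintype ν] : Nonempty (P.tw.HD ν) :=
  exists_hd ν (χ := fun d i => (P.K d i).χ) (.of_forall fun d i => ⟨(P.K d i).cb_χ,
    Adm.mono (K := (P.K d i).dp 1) ⟨(P.K d i).dp_sub one_pos, by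
      convert (isClosed_Dp (p := (P.K d i).p) (q := (P.K d i).q) (d := 1)).preimage
        (continuous_snd (X := Y)) using 1
      ext z
      refine ⟨fun h => show z.2 ∈ Dp _ _ 1 from (P.K d i).tm_ψ z h.1 ▸ h.2, fun h => ?_⟩
      have := (P.K d i).mem_src.2 (Dp_sub one_pos h)
      exact ⟨this, show _ ∈ Dp _ _ 1 from ((P.K d i).tm_ψ z this).symm ▸ h⟩⟩
      (isClosed_tsupport _) (tsupport_χ _)⟩)
    ((P.dp 2).mono fun d z h i => (P.K d i).χ_one
      (by rw [Nk.dp, mem_preimage, (h i).2.2.1]; exact (h i).2.1))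

variable {P}

/-- **the cyclic seeds of a pair of necks** -/
theorem nc {c : P.tw.CF n₀} {Z : ∀ d i, Set (P.S d i).M} (h : c.OK Z n) : NC c n := fun _ he =>
  let ⟨H⟩ := P.hd (Fin n₀ × Fin n₀)
  h.cyc H (P.sepT he.sep) (P.sepT he.sep.symm) (P.las fun t ht => laOK_of (he.w t ht))
    (P.las fun t ht => laOK_of (he.w' t ht))

end NP

end Crest.Agent.X212.Rsp69
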